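import Vale.Agent.P281Z.Mf.Api
import Vale.Agent.P277.H762.CL1

/-!
# P281Z, sections with poles: the bound and the algebraic operations
-/

open scoped Manifold ContDiff Topology
open Set Filter Function
open Vale.Agent.P272.K Vale.Agent.P285.H281.FD
open Vale.Agent.P277Z (Hol Nz at_chart hol_const)
open Vale.Agent.P277Z.Slc (lin triv Ind LEq Snc)
open Vale.Agent.P277.HD (pull)

set_option linter.unusedSectionVars false

noncomputable section

namespace Vale.Agent.P281Z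

section lb

variable {n : ℕ} {X : Type} [TopologicalSpace X] [ChartedSpace (Cm n) X] {L L' : Bd X} {x : X}

theorem lb_hol (h : IsLB n L) {a b : L.ι} (ha : x ∈ L.U a) (hb : x ∈ L.U b) : Hol n (L.g a b) x :=
  fun e he => (h.holo a b e x he ha hb).analyticAt

theorem lb_self (h : IsLB n L) {a : L.ι} (ha : x ∈ L.U a) : L.g a a x = 1 :=
  mul_left_cancel₀ (h.ne_zero a a x ha ha) (by rw [h.cocycle a a a x ha ha ha, mul_one])

theorem lb_near (h : IsLB n L) {a : L.ι} (ha : x ∈ L.U a) : ∀ᶠ y in 𝓝 x, y ∈ L.U a :=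
  (h.isOpen a).mem_nhds ha

theorem sec_hol {s : L.ι → X → ℂ} (h : IsSec n L s) {a : L.ι} (ha : x ∈ L.U a) : Hol n (s a) x :=
  fun e he => (h.holo a e x he ha).analyticAt

theorem isSec_of {s : L.ι → X → ℂ} (h1 : ∀ a, ∀ x ∈ L.U a, Hol n (s a) x)
    (h2 : ∀ a b x, x ∈ L.U a → x ∈ L.U b → s a x = L.g a b x * s b x) : IsSec n L s :=
  ⟨fun a e x he ha => (h1 a x ha e he).contDiffAt, h2⟩

theorem lb_mul (h : IsLB n L) (h' : IsLB n L') : IsLB n (L.mul L') where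
  isOpen a := (h.isOpen a.1).inter (h'.isOpen a.2)
  cover x := let ⟨a, ha⟩ := h.cover x; let ⟨b, hb⟩ := h'.cover x; ⟨(a, b), ha, hb⟩
  holo a b e x he ha hb := (h.holo _ _ e x he ha.1 hb.1).mul (h'.holo _ _ e x he ha.2 hb.2)
  ne_zero a b x ha hb := mul_ne_zero (h.ne_zero _ _ x ha.1 hb.1) (h'.ne_zero _ _ x ha.2 hb.2)
  cocycle a b c x ha hb hc := by
    show _ * _ * (_ * _) = _ * _
    rw [← h.cocycle _ _ _ x ha.1 hb.1 hc.1, ← h'.cocycle _ _ _ x ha.2 hb.2 hc.2]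
    ring

theorem lb_pow (h : IsLB n L) (k : ℕ) : IsLB n (L.pow k) where
  isOpen := h.isOpen
  cover := h.cover
  holo a b e x he ha hb := (h.holo _ _ e x he ha hb).pow k
  ne_zero a b x ha hb := pow_ne_zero k (h.ne_zero _ _ x ha hb)
  cocycle a b c x ha hb hc := by
    show _ ^ k * _ ^ k = _ ^ k
    rw [← h.cocycle _ _ _ x ha hb hc, mul_pow]

theorem lb_lin {α : Type} [Fintype α] {B : α → Bd X} (h : ∀ a, IsLB n (B a)) (k : α → ℤ) :
    IsLB n (lin B k) where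
  isOpen i := by
    show IsOpen {x | ∀ a, x ∈ (B a).U (i a)}
    rw [ofPred_forall]
    exact isOpen_iInter_of_finite fun a => (h a).isOpen _
  cover x := by
    choose i hi using fun a => (h a).cover x
    exact ⟨i, hi⟩
  holo i j e x he hi hj := (Hol.prod Finset.univ (fun a _ => (lb_hol (h a) (hi a) (hj a)).zpow
    ((h a).ne_zero _ _ x (hi a) (hj a)) (k a)) e he).contDiffAt
  ne_zero i j x hi hj := Finset.prod_ne_zero_iff.2 fun a _ =>
    zpow_ne_zero _ ((h a).ne_zero _ _ x (hi a) (hj a))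
  cocycle i j l x hi hj hl := by
    show (∏ a, _) * ∏ a, _ = ∏ a, _
    rw [← Finset.prod_mul_distrib]
    exact Finset.prod_congr rfl fun a _ => by
      rw [← (h a).cocycle _ _ _ x (hi a) (hj a) (hl a), mul_zpow]

theorem nz_iff (h : IsLB n L) {s : L.ι → X → ℂ}
    (hs : ∀ a b, x ∈ L.U a → x ∈ L.U b → s a x = L.g a b x * s b x) {a : L.ι} (ha : x ∈ L.U a) :
    NZ L s x ↔ s a x ≠ 0 :=
  ⟨fun k => k a ha, fun k b hb => by
    rw [hs b a hb ha]; exact mul_ne_zero (h.ne_zero _ _ x hb ha) k⟩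

end lb

variable {n p : ℕ} {X Y : Type} [TopologicalSpace X] [ChartedSpace (Cm n) X]
  [TopologicalSpace Y] [ChartedSpace (Cm p) Y] {κ : Type} [Fintype κ] {G : κ → Set Y}
  {i : X → Y} {c c' : κ → ℝ} {u u' : X → ℂ} {x : X} {ζ : κ → Y → ℂ}

variable (p) in
/-- the `G l` are smooth hypersurfaces -/
def Hyp (G : κ → Set Y) : Prop := ∀ y, ∃ ζ : κ → Y → ℂ, ∀ l, LEq p (G l) y (ζ l)

theorem Hyp.of_snc (h : Snc p G) : Hyp p G := fun y => (h y).imp fun _ k => k.1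

theorem off_iff {y : Y} (h : ∀ l, LEq p (G l) y (ζ l)) :
    ∀ᶠ z in 𝓝 y, z ∈ off G ↔ ∀ l, ζ l z ≠ 0 := by
  filter_upwards [eventually_all.2 fun l => (h l).1] with z hz
    using forall_congr' fun l => (not_congr (hz l)).symm

theorem Hyp.isOpen (h : Hyp p G) : IsOpen (off G) := isOpen_iff_mem_nhds.2 fun y hy =>
  let ⟨_, k⟩ := h y
  eventually_all.2 fun l => (k l).not_mem_near (hy l)

theorem Hyp.closed (h : Hyp p G) (l : κ) : IsClosed (G l) :=
  P277Z.Slc.isClosed_of_leq fun y => (h y).elim fun ζ k => ⟨ζ l, k l⟩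

variable (p) in
/-- `u` has at `x` at most the poles `i^* (∑ c l • G l)` -/
def BdP (i : X → Y) (G : κ → Set Y) (c : κ → ℝ) (u : X → ℂ) (x : X) : Prop :=
  ∀ ζ : κ → Y → ℂ, (∀ l, LEq p (G l) (i x) (ζ l)) →
    ∃ C : ℝ, ∀ᶠ y in 𝓝 x, i y ∈ off G → ‖u y‖ * ∏ l, ‖ζ l (i y)‖ ^ c l ≤ C

theorem wt_nonneg (ζ : κ → Y → ℂ) (c : κ → ℝ) (y : Y) : 0 ≤ ∏ l, ‖ζ l y‖ ^ c l :=
  Finset.prod_nonneg fun _ _ => Real.rpow_nonneg (norm_nonneg _) _

theorem wt_pos {y : Y} (h : ∀ l, ζ l y ≠ 0) (c : κ → ℝ) : 0 < ∏ l, ‖ζ l y‖ ^ c l :=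
  Finset.prod_pos fun l _ => Real.rpow_pos_of_pos (norm_pos_iff.2 (h l)) _

theorem wt_add {y : Y} (h : ∀ l, ζ l y ≠ 0) (c c' : κ → ℝ) :
    ∏ l, ‖ζ l y‖ ^ (c l + c' l) = (∏ l, ‖ζ l y‖ ^ c l) * ∏ l, ‖ζ l y‖ ^ c' l := by
  rw [← Finset.prod_mul_distrib]
  exact Finset.prod_congr rfl fun l _ => Real.rpow_add (norm_pos_iff.2 (h l)) _ _

theorem wt_int (ζ : κ → Y → ℂ) (k : κ → ℤ) (y : Y) :
    ∏ l, ‖ζ l y‖ ^ (k l : ℝ) = ‖∏ l, ζ l y ^ k l‖ := by
  rw [norm_prod]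
  exact Finset.prod_congr rfl fun l _ => by rw [Real.rpow_intCast, norm_zpow]

theorem bdd_near {T : Type} [TopologicalSpace T] {f : T → ℝ} {t : T} (h : ContinuousAt f t) :
    ∃ C : ℝ, 0 < C ∧ ∀ᶠ y in 𝓝 t, f y ≤ C :=
  ⟨|f t| + 1, by positivity,
    (h.eventually (gt_mem_nhds ((le_abs_self _).trans_lt (lt_add_one _)))).mono fun _ => le_of_lt⟩

theorem BdP.of_le (h : BdP p i G c u x) (K : ℝ)
    (k : ∀ᶠ y in 𝓝 x, i y ∈ off G → ‖u' y‖ ≤ K * ‖u y‖) : BdP p i G c u' x := fun ζ hζ => by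
  obtain ⟨C, hC⟩ := h ζ hζ
  refine ⟨|K| * C, ?_⟩
  filter_upwards [hC, k] with y h1 h2 h3
  calc _ ≤ |K| * ‖u y‖ * ∏ l, ‖ζ l (i y)‖ ^ c l :=
        mul_le_mul_of_nonneg_right ((h2 h3).trans
          (mul_le_mul_of_nonneg_right (le_abs_self K) (norm_nonneg _))) (wt_nonneg _ _ _)
    _ ≤ |K| * C := by rw [mul_assoc]; exact mul_le_mul_of_nonneg_left (h1 h3) (abs_nonneg K)

theorem BdP.congr (h : BdP p i G c u x) (k : ∀ᶠ y in 𝓝 x, i y ∈ off G → u' y = u y) :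
    BdP p i G c u' x :=
  h.of_le 1 (k.mono fun y h1 h2 => by rw [h1 h2, one_mul])

theorem BdP.cmul (h : BdP p i G c u x) {a : X → ℂ} (ha : ContinuousAt a x) :
    BdP p i G c (fun y => a y * u y) x :=
  let ⟨C, _, hC⟩ := bdd_near ha.norm
  h.of_le C (hC.mono fun y h1 _ => by
    rw [norm_mul]; exact mul_le_mul_of_nonneg_right h1 (norm_nonneg _))

theorem bdP_zero : BdP p i G c (fun _ => 0) x := fun _ _ => ⟨0, .of_forall fun _ _ => by simp⟩

theorem BdP.add (h : BdP p i G c u x) (h' : BdP p i G c u' x) :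
    BdP p i G c (fun y => u y + u' y) x := fun ζ hζ => by
  obtain ⟨C, hC⟩ := h ζ hζ
  obtain ⟨C', hC'⟩ := h' ζ hζ
  refine ⟨C + C', ?_⟩
  filter_upwards [hC, hC'] with y h1 h2 h3
  refine (mul_le_mul_of_nonneg_right (norm_add_le _ _) (wt_nonneg _ _ _)).trans ?_
  rw [add_mul]
  exact add_le_add (h1 h3) (h2 h3)

theorem bdP_sum {ι : Type*} (s : Finset ι) {f : ι → X → ℂ} (h : ∀ j ∈ s, BdP p i G c (f j) x) :
    BdP p i G c (fun y => ∑ j ∈ s, f j y) x := by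
  classical
  induction s using Finset.induction_on with
  | empty => simpa using bdP_zero
  | insert j s hj ih =>
    simp only [Finset.sum_insert hj]
    exact (h j (Finset.mem_insert_self j s)).add (ih fun j hj => h j (Finset.mem_insert_of_mem hj))

theorem BdP.comp {X' : Type} [TopologicalSpace X'] {j : X' → X} {x' : X'}
    (h : BdP p i G c u (j x')) (hj : ContinuousAt j x') :
    BdP p (fun y => i (j y)) G c (fun y => u (j y)) x' := fun ζ hζ =>
  (h ζ hζ).imp fun _ k => hj.eventually k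

theorem BdP.mul (hi : ContinuousAt i x) (h : BdP p i G c u x) (h' : BdP p i G c' u' x) :
    BdP p i G (fun l => c l + c' l) (fun y => u y * u' y) x := fun ζ hζ => by
  obtain ⟨C, hC⟩ := h ζ hζ
  obtain ⟨C', hC'⟩ := h' ζ hζ
  refine ⟨C * C', ?_⟩
  filter_upwards [hC, hC', hi.eventually (off_iff hζ)] with y h1 h2 h4 h3
  rw [wt_add (h4.1 h3), norm_mul, mul_mul_mul_comm]
  exact mul_le_mul (h1 h3) (h2 h3) (mul_nonneg (norm_nonneg _) (wt_nonneg _ _ _))
    ((mul_nonneg (norm_nonneg _) (wt_nonneg _ _ _)).trans (h1 h3))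

/-- bounded functions have no poles; only the divisors through the point matter -/
theorem bdP_of_bdd (hi : ContinuousAt i x) (hc : ∀ l, i x ∈ G l → 0 ≤ c l) {C : ℝ}
    (h : ∀ᶠ y in 𝓝 x, i y ∈ off G → ‖u y‖ ≤ C) : BdP p i G c u x := fun ζ hζ => by
  have h1 : ContinuousAt (fun y => ∏ l, ‖ζ l (i y)‖ ^ c l) x :=
    tendsto_finsetProd _ fun l _ => ((hζ l).hol.cont.comp hi).norm.rpow_const
      ((em (i x ∈ G l)).symm.imp (fun k => norm_ne_zero_iff.2 (mt (hζ l).mem.1 k)) (hc l))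
  obtain ⟨C', -, h2⟩ := bdd_near h1
  refine ⟨C * C', ?_⟩
  filter_upwards [h, h2] with y h3 h4 h5
    using mul_le_mul (h3 h5) h4 (wt_nonneg _ _ _) ((norm_nonneg _).trans (h3 h5))

theorem bdP_of_cont (hi : ContinuousAt i x) (hc : ∀ l, i x ∈ G l → 0 ≤ c l)
    (h : ContinuousAt u x) : BdP p i G c u x :=
  let ⟨_, _, k⟩ := bdd_near h.norm
  bdP_of_bdd hi hc (k.mono fun _ k _ => k)

theorem bdP_off (hi : ContinuousAt i x) (hx : i x ∈ off G) (h : ContinuousAt u x) :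
    BdP p i G c u x := bdP_of_cont hi (fun l k => (hx l k).elim) h

theorem BdP.mono (hi : ContinuousAt i x) (h : BdP p i G c u x)
    (hc : ∀ l, i x ∈ G l → c l ≤ c' l) : BdP p i G c' u x := by
  have := h.mul hi (bdP_of_cont (c := fun l => c' l - c l) (u := fun _ => 1) hi
    (fun l k => sub_nonneg.2 (hc l k)) continuousAt_const)
  simpa using this

theorem bdP_prod (hi : ContinuousAt i x) {ι : Type*} (s : Finset ι) {f : ι → X → ℂ}
    {d : ι → κ → ℝ} (h : ∀ j ∈ s, BdP p i G (d j) (f j) x) :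
    BdP p i G (fun l => ∑ j ∈ s, d j l) (fun y => ∏ j ∈ s, f j y) x := by
  classical
  induction s using Finset.induction_on with
  | empty => simpa using bdP_of_cont hi (fun _ _ => le_rfl) continuousAt_const
  | insert j s hj ih =>
    simp only [Finset.sum_insert hj, Finset.prod_insert hj]
    exact (h j (Finset.mem_insert_self j s)).mul hi
      (ih fun j hj => h j (Finset.mem_insert_of_mem hj))

theorem BdP.pow (hi : ContinuousAt i x) (h : BdP p i G c u x) (k : ℕ) :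
    BdP p i G (fun l => k * c l) (fun y => u y ^ k) x := by
  simpa using bdP_prod hi (Finset.range k) (f := fun _ => u) (d := fun _ => c) fun _ _ => h

/-- roots -/
theorem BdP.of_pow {k : ℕ} (hk : 0 < k) (h : BdP p i G (fun l => k * c l) (fun y => u y ^ k) x) :
    BdP p i G c u x := fun ζ hζ => by
  obtain ⟨C, hC⟩ := h ζ hζ
  refine ⟨max C 1, hC.mono fun y h1 h2 => ?_⟩
  have h3 : (‖u y‖ * ∏ l, ‖ζ l (i y)‖ ^ c l) ^ k ≤ C := by
    refine le_trans (le_of_eq ?_) (h1 h2)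
    rw [mul_pow, norm_pow, ← Finset.prod_pow]
    exact congrArg _ (Finset.prod_congr rfl fun l _ => by
      show _ = _ ^ ((k : ℝ) * c l)
      rw [mul_comm, Real.rpow_mul_natCast (norm_nonneg _)])
  by_contra h4
  rw [not_le, max_lt_iff] at h4
  exact absurd (h4.1.trans_le (le_self_pow₀ h4.2.le hk.ne')) (not_lt.2 h3)

section man

variable [IsManifold 𝓘(ℂ, Cm p) ω Y]

theorem leq_unit {S : Set Y} {y : Y} {ξ ξ' : Y → ℂ} (h : LEq p S y ξ) (h' : LEq p S y ξ') :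
    ∃ w : Y → ℂ, Hol p w y ∧ w y ≠ 0 ∧ ∀ᶠ z in 𝓝 y, ξ' z = w z * ξ z := by
  have hiff : ξ y = 0 ↔ ξ' y = 0 := h.mem.trans h'.mem.symm
  by_cases h0 : ξ y = 0
  · have he := at_chart (n := p) y
    set e := chartAt (Cm p) y
    have hd := (h.2 e he).2 h0
    obtain ⟨m, hm⟩ : ∃ m, Module.finrank ℂ (Cm p) = m + 1 := by
      refine Nat.exists_eq_succ_of_ne_zero fun h1 => hd ?_
      have := Module.finrank_zero_iff.1 h1
      exact Subsingleton.elim _ _
    obtain ⟨U, h1, h2, h3⟩ := P277.H762.exists_div_unit hm (h.2 e he).1 hd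
      (by rwa [e.left_inv he.2]) (h'.2 e he).1 ((h'.2 e he).2 (hiff.1 h0))
      ((at_ev he (h.1.and h'.1)).mono fun z hz h4 => hz.2.2 (hz.1.1 h4))
    refine ⟨fun y => U (e y), P277Z.hol_comp he h1, h2, ?_⟩
    filter_upwards [(e.continuousAt he.2).eventually h3, P277Z.At.left he] with z h4 hz
    rw [hz] at h4
    rw [h4, mul_comm]
  · refine ⟨fun y => ξ' y / ξ y, h'.hol.div h.hol h0, div_ne_zero (mt hiff.2 h0) h0, ?_⟩
    filter_upwards [h.hol.ne_near h0] with y hy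
    rw [div_mul_cancel₀ _ hy]

/-- one system of local equations is enough -/
theorem bdP_of_one (hi : ContinuousAt i x) (hζ : ∀ l, LEq p (G l) (i x) (ζ l)) {C : ℝ}
    (h : ∀ᶠ y in 𝓝 x, i y ∈ off G → ‖u y‖ * ∏ l, ‖ζ l (i y)‖ ^ c l ≤ C) : BdP p i G c u x := by
  intro ζ' hζ'
  choose w h1 h2 h3 using fun l => leq_unit (hζ l) (hζ' l)
  have h4 : ContinuousAt (fun y => ∏ l, ‖w l (i y)‖ ^ c l) x :=
    tendsto_finsetProd _ fun l _ => ((h1 l).cont.comp hi).norm.rpow_const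
      (Or.inl (norm_ne_zero_iff.2 (h2 l)))
  obtain ⟨C', h5, h6⟩ := bdd_near h4
  refine ⟨C' * C, ?_⟩
  filter_upwards [h, h6, hi.eventually (eventually_all.2 h3)] with y k1 k2 k3 k4
  have k5 : ∏ l, ‖ζ' l (i y)‖ ^ c l = (∏ l, ‖w l (i y)‖ ^ c l) * ∏ l, ‖ζ l (i y)‖ ^ c l := by
    rw [← Finset.prod_mul_distrib]
    exact Finset.prod_congr rfl fun l _ => by
      rw [k3 l, norm_mul, Real.mul_rpow (norm_nonneg _) (norm_nonneg _)]
  rw [k5, mul_left_comm]
  exact mul_le_mul k2 (k1 k4) (mul_nonneg (norm_nonneg _) (wt_nonneg _ _ _)) h5.le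

theorem BdP.near (hG : Hyp p G) (hi : ∀ᶠ y in 𝓝 x, ContinuousAt i y) (h : BdP p i G c u x) :
    ∀ᶠ y in 𝓝 x, BdP p i G c u y := by
  obtain ⟨ζ, hζ⟩ := hG (i x)
  obtain ⟨C, hC⟩ := h ζ hζ
  filter_upwards [hi, hC.eventually_nhds,
    hi.self_of_nhds.eventually (eventually_all.2 fun l => (hζ l).near)] with y h1 h2 h3
    using bdP_of_one h1 h3 h2

/-- monomials -/
theorem bdP_mono (hi : ContinuousAt i x) (hζ : ∀ l, LEq p (G l) (i x) (ζ l)) (k : κ → ℤ) :
    BdP p i G (fun l => -(k l : ℝ)) (fun y => ∏ l, ζ l (i y) ^ k l) x := by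
  refine bdP_of_one hi hζ (C := 1) ?_
  filter_upwards [hi.eventually (off_iff hζ)] with y h1 h2
  rw [← wt_int, ← wt_add (h1.1 h2)]
  simp

theorem BdP.mul_mono (hi : ContinuousAt i x) (h : BdP p i G c u x)
    (hζ : ∀ l, LEq p (G l) (i x) (ζ l)) (k : κ → ℤ) :
    BdP p i G (fun l => c l - k l) (fun y => u y * ∏ l, ζ l (i y) ^ k l) x := by
  simpa only [sub_eq_add_neg] using h.mul hi (bdP_mono hi hζ k)

theorem BdP.bdd (hG : Hyp p G) (hi : ContinuousAt i x) (h : BdP p i G c u x)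
    (hc : ∀ l, i x ∈ G l → c l ≤ 0) : ∃ C : ℝ, ∀ᶠ y in 𝓝 x, i y ∈ off G → ‖u y‖ ≤ C := by
  obtain ⟨ζ, hζ⟩ := hG (i x)
  simpa using h.mono hi (c' := fun _ => 0) hc ζ hζ

/-- the transversal case: the bound can be read on `X` -/
theorem bdP_iff_pull [IsManifold 𝓘(ℂ, Cm n) ω X] (hi : ContinuousAt i x)
    (hζ : ∀ l, LEq p (G l) (i x) (ζ l)) (hζ' : ∀ l, LEq n (i ⁻¹' G l) x fun y => ζ l (i y)) :
    BdP p i G c u x ↔ BdP n id (fun l => i ⁻¹' G l) c u x :=
  ⟨fun h => (h ζ hζ).elim fun _ k => bdP_of_one continuousAt_id hζ' k,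
    fun h => (h _ hζ').elim fun _ k => bdP_of_one hi hζ k⟩

end man

/-! ### sections -/

variable {O O' : Set X} {L L' : Bd X} {s s' : L.ι → X → ℂ} {t : L'.ι → X → ℂ}

theorem SecP.bdP (h : SecP n p i O L G c s) {a : L.ι} (hx : x ∈ O) (ha : x ∈ L.U a) :
    BdP p i G c (s a) x := h.bd a x hx ha

theorem SecP.res (h : SecP n p i O L G c s) (k : O' ⊆ O) : SecP n p i O' L G c s :=
  ⟨fun a x hx => h.hol a x (k hx), fun a b x hx => h.chg a b x (k hx),
    fun a x hx => h.bd a x (k hx)⟩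

theorem SecP.mono' (hi : Continuous i) (h : SecP n p i O L G c s)
    (hc : ∀ l, ∀ x ∈ O, i x ∈ G l → c l ≤ c' l) : SecP n p i O L G c' s :=
  ⟨h.hol, h.chg, fun _ x hx ha => (h.bdP hx ha).mono hi.continuousAt fun l => hc l x hx⟩

theorem SecP.mono (hi : Continuous i) (h : SecP n p i O L G c s) (hc : ∀ l, c l ≤ c' l) :
    SecP n p i O L G c' s := h.mono' hi fun l _ _ _ => hc l

theorem secP_zero : SecP n p i O L G c fun _ _ => 0 :=
  ⟨fun _ x _ _ _ => hol_const 0 x, fun _ _ _ _ _ _ _ => (mul_zero _).symm, fun _ _ _ _ => bdP_zero⟩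

theorem SecP.add (h : SecP n p i O L G c s) (h' : SecP n p i O L G c s') :
    SecP n p i O L G c fun a x => s a x + s' a x :=
  ⟨fun a x hx ha hG => (h.hol a x hx ha hG).add (h'.hol a x hx ha hG),
    fun a b x hx ha hb hG => by rw [h.chg a b x hx ha hb hG, h'.chg a b x hx ha hb hG, mul_add],
    fun _ _ hx ha => (h.bdP hx ha).add (h'.bdP hx ha)⟩

theorem SecP.smul (h : SecP n p i O L G c s) {a : X → ℂ} (ha : ∀ x ∈ O, Hol n a x) :
    SecP n p i O L G c fun b x => a x * s b x :=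
  ⟨fun b x hx hb hG => (ha x hx).mul (h.hol b x hx hb hG),
    fun b b' x hx hb hb' hG => by rw [h.chg b b' x hx hb hb' hG, mul_left_comm],
    fun _ x hx hb => (h.bdP hx hb).cmul (ha x hx).cont⟩

theorem secP_sum {ι : Type*} (T : Finset ι) {f : ι → L.ι → X → ℂ}
    (h : ∀ j ∈ T, SecP n p i O L G c (f j)) : SecP n p i O L G c fun a x => ∑ j ∈ T, f j a x :=
  ⟨fun a x hx ha hG => Hol.sum T fun j hj => (h j hj).hol a x hx ha hG,
    fun a b x hx ha hb hG => by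
      rw [Finset.mul_sum]
      exact Finset.sum_congr rfl fun j hj => (h j hj).chg a b x hx ha hb hG,
    fun _ _ hx ha => bdP_sum T fun j hj => (h j hj).bdP hx ha⟩

theorem SecP.mul (hi : Continuous i) (h : SecP n p i O L G c s) (h' : SecP n p i O L' G c' t) :
    SecP n p i O (L.mul L') G (fun l => c l + c' l) fun a x => s a.1 x * t a.2 x :=
  ⟨fun a x hx ha hG => (h.hol a.1 x hx ha.1 hG).mul (h'.hol a.2 x hx ha.2 hG),
    fun a b x hx ha hb hG => by
      rw [h.chg a.1 b.1 x hx ha.1 hb.1 hG, h'.chg a.2 b.2 x hx ha.2 hb.2 hG]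
      exact mul_mul_mul_comm _ _ _ _,
    fun _ _ hx ha => (h.bdP hx ha.1).mul hi.continuousAt (h'.bdP hx ha.2)⟩

theorem SecP.pow (hi : Continuous i) (h : SecP n p i O L G c s) (k : ℕ) :
    SecP n p i O (L.pow k) G (fun l => k * c l) fun a x => s a x ^ k :=
  ⟨fun a x hx ha hG => (h.hol a x hx ha hG).pow k,
    fun a b x hx ha hb hG => by rw [h.chg a b x hx ha hb hG]; exact mul_pow _ _ _,
    fun _ _ hx ha => (h.bdP hx ha).pow hi.continuousAt k⟩

/-- a product of `k` sections of `L` -/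
theorem secP_prod (hi : Continuous i) {ι : Type*} (T : Finset ι) {f : ι → L.ι → X → ℂ}
    {d : ι → κ → ℝ} (h : ∀ j ∈ T, SecP n p i O L G (d j) (f j)) :
    SecP n p i O (L.pow T.card) G (fun l => ∑ j ∈ T, d j l) fun a x => ∏ j ∈ T, f j a x :=
  ⟨fun a x hx ha hG => Hol.prod T fun j hj => (h j hj).hol a x hx ha hG,
    fun a b x hx ha hb hG => by
      show _ = L.g a b x ^ T.card * _
      rw [← Finset.prod_const, ← Finset.prod_mul_distrib]
      exact Finset.prod_congr rfl fun j hj => (h j hj).chg a b x hx ha hb hG,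
    fun _ _ hx ha => bdP_prod hi.continuousAt T fun j hj => (h j hj).bdP hx ha⟩

theorem secP_lin (hi : Continuous i) {α : Type} [Fintype α] {B : α → Bd X}
    {f : ∀ a, (B a).ι → X → ℂ} {d : α → κ → ℝ} (h : ∀ a, SecP n p i O (B a) G (d a) (f a))
    (k : α → ℕ) : SecP n p i O (lin B fun a => k a) G (fun l => ∑ a, k a * d a l)
      fun j x => ∏ a, f a (j a) x ^ k a :=
  ⟨fun j x hx hj hG => Hol.prod _ fun a _ => ((h a).hol _ x hx (hj a) hG).pow _,
    fun j j' x hx hj hj' hG => by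
      show _ = (∏ a, _) * _
      rw [← Finset.prod_mul_distrib]
      exact Finset.prod_congr rfl fun a _ => by
        rw [(h a).chg _ _ x hx (hj a) (hj' a) hG, mul_pow, zpow_natCast],
    fun _ _ hx hj => bdP_prod hi.continuousAt _ fun a _ =>
      ((h a).bdP hx (hj a)).pow hi.continuousAt _⟩

theorem secP_of_sec (hi : Continuous i) (h : IsSec n L s) (hc : ∀ l, 0 ≤ c l) :
    SecP n p i O L G c s :=
  ⟨fun _ _ _ ha _ => sec_hol h ha, fun a b x _ ha hb _ => h.change a b x ha hb,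
    fun _ _ _ ha => bdP_of_cont hi.continuousAt (fun l _ => hc l) (sec_hol h ha).cont⟩

/-- the bound can be checked in one frame -/
theorem secP_of_loc (hL : IsLB n L) (hO : IsOpen O)
    (h1 : ∀ a, ∀ x ∈ O, x ∈ L.U a → i x ∈ off G → Hol n (s a) x)
    (h2 : ∀ a b, ∀ x ∈ O, x ∈ L.U a → x ∈ L.U b → i x ∈ off G → s a x = L.g a b x * s b x)
    (h3 : ∀ x ∈ O, ∃ a, x ∈ L.U a ∧ BdP p i G c (s a) x) : SecP n p i O L G c s :=
  ⟨h1, h2, fun a x hx ha => by
    obtain ⟨b, hb, k⟩ := h3 x hx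
    refine (k.cmul (lb_hol hL ha hb).cont).congr ?_
    filter_upwards [hO.mem_nhds hx, lb_near hL ha, lb_near hL hb] with y k1 k2 k3
      using h2 a b y k1 k2 k3⟩

theorem SecP.nz_iff (hL : IsLB n L) (h : SecP n p i O L G c s) (hx : x ∈ O) (hG : i x ∈ off G)
    {a : L.ι} (ha : x ∈ L.U a) : NZ L s x ↔ s a x ≠ 0 :=
  P281Z.nz_iff hL (fun a b ha hb => h.chg a b x hx ha hb hG) ha

variable [IsManifold 𝓘(ℂ, Cm n) ω X] [IsManifold 𝓘(ℂ, Cm p) ω Y]

theorem SecP.congr (hL : IsLB n L) (hO : IsOpen O) (hG : IsOpen (i ⁻¹' off G))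
    (h : SecP n p i O L G c s) (k : ∀ a, ∀ x ∈ O, x ∈ L.U a → i x ∈ off G → s' a x = s a x) :
    SecP n p i O L G c s' :=
  ⟨fun a x hx ha h1 => (h.hol a x hx ha h1).congr (by
      filter_upwards [hO.mem_nhds hx, lb_near hL ha, hG.mem_nhds h1] with y k1 k2 k3
        using (k a y k1 k2 k3).symm),
    fun a b x hx ha hb h1 => by rw [k a x hx ha h1, k b x hx hb h1, h.chg a b x hx ha hb h1],
    fun a x hx ha => (h.bdP hx ha).congr (by
      filter_upwards [hO.mem_nhds hx, lb_near hL ha] with y k1 k2 using k a y k1 k2)⟩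

/-- pull back, restriction to submanifolds -/
theorem SecP.comp {m : ℕ} {X' : Type} [TopologicalSpace X'] [ChartedSpace (Cm m) X']
    [IsManifold 𝓘(ℂ, Cm m) ω X'] {j : X' → X} (h : SecP n p i O L G c s) (hj : HolM m n j) :
    SecP m p (fun x => i (j x)) (j ⁻¹' O) (pull j L) G c fun a x => s a (j x) :=
  ⟨fun a x hx ha hG => hj.hol (h.hol a (j x) hx ha hG), fun a b x => h.chg a b (j x),
    fun _ _ hx ha => (h.bdP hx ha).comp hj.cont.continuousAt⟩

variable (n p) in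
/-- local equations of the `G l` pull back to local equations -/
def Trv (i : X → Y) (G : κ → Set Y) : Prop :=
  ∀ x, ∃ ζ : κ → Y → ℂ, (∀ l, LEq p (G l) (i x) (ζ l)) ∧ ∀ l, LEq n (i ⁻¹' G l) x fun y => ζ l (i y)

theorem secP_iff_pull (hi : Continuous i) (hT : Trv n p i G) :
    SecP n p i O L G c s ↔ SecP n n id O L (fun l => i ⁻¹' G l) c s :=
  ⟨fun h => ⟨h.hol, h.chg, fun _ x hx ha => let ⟨_, k1, k2⟩ := hT x
      (bdP_iff_pull hi.continuousAt k1 k2).1 (h.bdP hx ha)⟩,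
    fun h => ⟨h.hol, h.chg, fun _ x hx ha => let ⟨_, k1, k2⟩ := hT x
      (bdP_iff_pull hi.continuousAt k1 k2).2 (h.bdP hx ha)⟩⟩

/-- the canonical meromorphic section of `∑ k l • G l` -/
theorem secP_div (hi : HolM n p i) {D : κ → Bd Y} {σ : ∀ l, (D l).ι → Y → ℂ}
    (hD : ∀ l, P277Z.Slc.IsDiv p (G l) (D l) (σ l)) (k : κ → ℤ) :
    SecP n p i O (pull i (lin D k)) G (fun l => -(k l : ℝ))
      (fun j x => ∏ l, σ l (j l) (i x) ^ k l) ∧
      ∀ x, i x ∈ off G → NZ (pull i (lin D k)) (fun j x => ∏ l, σ l (j l) (i x) ^ k l) x := by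
  have h0 : ∀ x l j, i x ∈ off G → i x ∈ (D l).U j → σ l j (i x) ≠ 0 := fun x l j h1 h2 =>
    mt ((hD l).leq j _ h2).mem.1 (h1 l)
  refine ⟨⟨fun j x _ hj hG => Hol.prod _ fun l _ =>
    (hi.hol (sec_hol (hD l).sec (hj l))).zpow (h0 x l _ hG (hj l)) _, fun j j' x _ hj hj' _ => ?_,
    fun j x _ hj => bdP_mono hi.cont.continuousAt (fun l => (hD l).leq _ _ (hj l)) k⟩,
    fun x hx j hj => Finset.prod_ne_zero_iff.2 fun l _ => zpow_ne_zero _ (h0 x l _ hx (hj l))⟩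
  show _ = (∏ l, _) * _
  rw [← Finset.prod_mul_distrib]
  exact Finset.prod_congr rfl fun l _ => by
    rw [(hD l).sec.change _ _ _ (hj l) (hj' l), mul_zpow]

end Vale.Agent.P281Z
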