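import Vale.Agent.P281Z.Sc.Bd
import Vale.Agent.P281Z.Mf.Loc
import Vale.Agent.P277Z.Slc.Div
import Vale.Agent.P267.H338.Riem

/-!
# P281Z, sections with poles: extension theorems
-/

open scoped Manifold ContDiff Topology
open Set Filter Function Metric
open Vale.Agent.P272.K Vale.Agent.P285.H281.FD
open Vale.Agent.P277Z (Hol Nz at_chart hol_const)
open Vale.Agent.P277Z.Slc (lin triv Ind LEq Snc)
open Vale.Agent.P277.HD (pull)

set_option linter.unusedSectionVars false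

noncomputable section

namespace Vale.Agent.P281Z

namespace Sc

theorem disc {f : ℂ → ℂ} {ρ C θ K : ℝ} (hρ : 0 < ρ)
    (hf : ∀ τ : ℂ, ‖τ‖ ≤ ρ → τ ≠ 0 → DifferentiableAt ℂ f τ) (hθ : θ < 1)
    (hb : ∀ᶠ τ in 𝓝[≠] (0 : ℂ), ‖f τ‖ * ‖τ‖ ^ θ ≤ K) (hC : ∀ τ : ℂ, ‖τ‖ = ρ → ‖f τ‖ ≤ C) {τ : ℂ}
    (hτ : ‖τ‖ ≤ ρ) (h0 : τ ≠ 0) : ‖f τ‖ ≤ C := by
  have h1 : (fun z => f z - f 0) =o[𝓝[≠] 0] fun z : ℂ => (z - 0)⁻¹ := by
    refine Asymptotics.isLittleO_iff.2 fun ε hε => ?_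
    have h2 : ContinuousAt (fun z : ℂ => K * ‖z‖ ^ (1 - θ) + ‖f 0‖ * ‖z‖) 0 :=
      (continuousAt_const.mul (continuous_norm.continuousAt.rpow_const
        (Or.inr (by linarith)))).add (by fun_prop)
    have h3 := h2.eventually (gt_mem_nhds (a := ε) (by
      simpa [Real.zero_rpow (sub_pos.2 hθ).ne'] using hε))
    filter_upwards [hb, h3.filter_mono nhdsWithin_le_nhds, self_mem_nhdsWithin] with z k1 k2 k3
    have k4 : 0 < ‖z‖ := norm_pos_iff.2 k3
    have k5 : ‖f z‖ * ‖z‖ ≤ K * ‖z‖ ^ (1 - θ) := by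
      have := mul_le_mul_of_nonneg_right k1 (Real.rpow_nonneg k4.le (1 - θ))
      rwa [mul_assoc, ← Real.rpow_add k4, add_sub_cancel, Real.rpow_one] at this
    rw [sub_zero, norm_inv, ← div_eq_mul_inv, le_div_iff₀ k4]
    have k6 := mul_le_mul_of_nonneg_right (norm_sub_le (f z) (f 0)) k4.le
    linarith
  have h2 := Complex.differentiableOn_update_limUnder_of_isLittleO (closedBall_mem_nhds 0 hρ)
    (fun z hz => (hf z (by simpa using hz.1) hz.2).differentiableWithinAt) h1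
  rw [← closure_ball _ hρ.ne'] at h2
  have h3 := Complex.norm_le_of_forall_mem_frontier_norm_le isBounded_ball h2.diffContOnCl
    (C := C) (fun z hz => by
      rw [frontier_ball _ hρ.ne', mem_sphere_zero_iff_norm] at hz
      rw [update_of_ne (norm_pos_iff.1 (hz ▸ hρ))]
      exact hC z hz) (z := τ) (by rw [closure_ball _ hρ.ne']; simpa using hτ)
  rwa [update_of_ne h0] at h3

theorem flat {α E : Type} [Fintype α] [NormedAddCommGroup E] [NormedSpace ℂ E] [ProperSpace E]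
    {v : (α → ℂ) × E → ℂ} {p₀ : E} {R : ℝ} (hR : 0 < R) {θ : α → ℝ} (hθ : ∀ a, θ a < 1)
    (hv : ∀ q ∈ closedBall ((0, p₀) : (α → ℂ) × E) R, (∀ a, q.1 a ≠ 0) → DifferentiableAt ℂ v q)
    (hD : ∀ a, ∀ q ∈ ball ((0, p₀) : (α → ℂ) × E) R, q.1 a = 0 → (∀ b, b ≠ a → q.1 b ≠ 0) →
      ∃ᶠ q' in 𝓝 q, q'.1 a = 0 ∧
        ∃ K, ∀ᶠ w in 𝓝 q', (∀ b, w.1 b ≠ 0) → ‖v w‖ * ‖w.1 a‖ ^ θ a ≤ K) :
    ∃ C, ∀ q ∈ ball ((0, p₀) : (α → ℂ) × E) R, (∀ a, q.1 a ≠ 0) → ‖v q‖ ≤ C := by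
  classical
  have hB : ∀ q : (α → ℂ) × E, q ∈ ball (0, p₀) R ↔ (∀ a, ‖q.1 a‖ < R) ∧ dist q.2 p₀ < R :=
    fun q => by simp [Prod.dist_eq, pi_norm_lt_iff hR]
  have hK : IsCompact (closedBall ((0, p₀) : (α → ℂ) × E) R ∩ ⋂ a, {q | R / 2 ≤ ‖q.1 a‖}) :=
    (isCompact_closedBall _ _).inter_right
      (isClosed_iInter fun a => isClosed_le continuous_const (by fun_prop))
  obtain ⟨C, hC⟩ := hK.exists_bound_of_continuousOn (f := v) fun q hq =>
    (hv q hq.1 fun a => norm_pos_iff.1 ((half_pos hR).trans_le (mem_iInter.1 hq.2 a))).continuousAt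
      |>.continuousWithinAt
  have key : ∀ T : Finset α, ∀ q ∈ ball ((0, p₀) : (α → ℂ) × E) R, (∀ a, q.1 a ≠ 0) →
      (∀ a ∉ T, R / 2 < ‖q.1 a‖) → ‖v q‖ ≤ C := by
    intro T
    induction T using Finset.induction_on with
    | empty =>
      exact fun q h1 _ h3 => hC q ⟨ball_subset_closedBall h1,
        mem_iInter.2 fun a => (h3 a (Finset.notMem_empty a)).le⟩
    | insert a T _ ih =>
      intro q h1 h2 h3
      let U : (α → ℂ) × E → ℂ → (α → ℂ) × E := fun q τ => (update q.1 a τ, q.2)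
      have hU : ∀ q τ b, b ≠ a → (U q τ).1 b = q.1 b := fun q τ b hb => update_of_ne hb _ _
      have hUa : ∀ q τ, (U q τ).1 a = τ := fun q τ => update_self a τ q.1
      have hUB : ∀ q ∈ ball ((0, p₀) : (α → ℂ) × E) R, ∀ τ : ℂ, ‖τ‖ < R →
          U q τ ∈ ball ((0, p₀) : (α → ℂ) × E) R := fun q hq τ hτ =>
        (hB _).2 ⟨fun b => (eq_or_ne b a).elim (fun e => by rw [e, hUa]; exact hτ)
          fun e => by rw [hU q τ b e]; exact ((hB q).1 hq).1 b, ((hB q).1 hq).2⟩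
      have hUn : ∀ q τ, τ ≠ 0 → (∀ b, b ≠ a → q.1 b ≠ 0) → ∀ b, (U q τ).1 b ≠ 0 :=
        fun q τ hτ hq b => (eq_or_ne b a).elim (fun e => by rw [e, hUa]; exact hτ)
          fun e => by rw [hU q τ b e]; exact hq b e
      obtain ⟨ρ, k1, k2⟩ := exists_between (max_lt (half_lt_self hR) (((hB q).1 h1).1 a))
      rw [max_lt_iff] at k1
      have hρ : 0 < ρ := (half_pos hR).trans k1.1
      have k3 := hD a (U q 0) (hUB q h1 0 (by simpa using hR)) (hUa q 0)
        fun b hb => by rw [hU q 0 b hb]; exact h2 b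
      have k4 : ∀ᶠ q' in 𝓝 (U q 0), q' ∈ ball ((0, p₀) : (α → ℂ) × E) R ∧
          (∀ b, b ≠ a → q'.1 b ≠ 0) ∧ ∀ b, b ≠ a → b ∉ T → R / 2 < ‖q'.1 b‖ := by
        refine (isOpen_ball.eventually_mem (hUB q h1 0 (by simpa using hR))).and
          ((eventually_all.2 fun b => eventually_imp_distrib_left.2 fun hb => ?_).and
          (eventually_all.2 fun b => eventually_imp_distrib_left.2 fun hb =>
            eventually_imp_distrib_left.2 fun hT => ?_))
        · exact ContinuousAt.eventually_ne (by fun_prop) (by rw [hU q 0 b hb]; exact h2 b)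
        · refine ContinuousAt.eventually_lt continuousAt_const (by fun_prop) ?_
          rw [hU q 0 b hb]
          exact h3 b (by simp [hb, hT])
      have k5 : U (U q 0) (q.1 a) = q := by simp [U]
      have k6 : Tendsto (fun q' => ‖v (U q' (q.1 a))‖) (𝓝 (U q 0)) (𝓝 ‖v q‖) := by
        have c1 : Continuous fun q' => U q' (q.1 a) :=
          (continuous_fst.update a continuous_const).prodMk continuous_snd
        have c2 := c1.tendsto (U q 0)
        rw [k5] at c2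
        exact ((hv q (ball_subset_closedBall h1) h2).continuousAt.tendsto.comp c2).norm
      refine isClosed_Iic.mem_of_frequently_of_tendsto ((k3.and_eventually k4).mono ?_) k6
      rintro q' ⟨⟨m1, K, m2⟩, m3, m4, m5⟩
      have d1 : Differentiable ℂ (U q') := fun τ =>
        (differentiableAt_pi.2 fun b => (eq_or_ne b a).elim
          (fun e => by simp [e])
          fun e => by simp [update_of_ne e]).prodMk (differentiableAt_const _)
      refine disc (f := fun τ => v (U q' τ)) (K := K) hρ (fun τ t1 t2 => ?_) (hθ a) ?_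
        (fun τ t1 => ?_) k1.2.le (h2 a)
      · exact (hv _ (ball_subset_closedBall (hUB q' m3 τ (t1.trans_lt k2)))
          (hUn q' τ t2 m4)).comp τ (d1 τ)
      · have e : U q' 0 = q' := by rw [← m1]; simp [U]
        filter_upwards [((e ▸ d1.continuous.tendsto 0).eventually m2).filter_mono
          nhdsWithin_le_nhds, self_mem_nhdsWithin] with τ t1 t2
        simpa only [hUa] using t1 (hUn q' τ t2 m4)
      · refine ih _ (hUB q' m3 τ (t1 ▸ k2)) (hUn q' τ (norm_pos_iff.1 (t1 ▸ hρ)) m4) fun b hb => ?_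
        rcases eq_or_ne b a with e | e
        · rw [e, hUa, t1]; exact k1.1
        · rw [hU q' τ b e]; exact m5 b e hb
  exact ⟨C, fun q h1 h2 => key Finset.univ q h1 h2 fun a ha => (ha (Finset.mem_univ a)).elim⟩

end Sc

variable {n : ℕ} {X : Type} [TopologicalSpace X] [ChartedSpace (Cm n) X]
  [IsManifold 𝓘(ℂ, Cm n) ω X] {κ : Type} [Fintype κ] {G : κ → Set X} {c : κ → ℝ} {k : κ → ℤ}
  {u : X → ℂ} {x : X} {ζ : κ → X → ℂ}

/-- the extension theorem of Riemann -/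
theorem riem {τ f : X → ℂ} {C : ℝ} (hτ : Hol n τ x) (h0 : Nz τ x)
    (hf : ∀ᶠ w in 𝓝 x, τ w ≠ 0 → Hol n f w ∧ ‖f w‖ ≤ C) :
    ∃ b, Hol n b x ∧ ∀ᶠ w in 𝓝 x, τ w ≠ 0 → b w = f w := by
  have he := at_chart (n := n) x
  set e := chartAt (Cm n) x
  have h1 : ∀ᶠ z in 𝓝 (e x), z ∈ e.target := e.open_target.mem_nhds (e.map_source he.2)
  obtain ⟨V, hB, hV, hxV⟩ := _root_.eventually_nhds_iff.1 ((hτ e he).eventually_analyticAt.and
    (h1.and (at_ev he hf)))
  obtain ⟨V', hV', hx', -, U, hU, e'⟩ := P267.H338.riemann_extension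
    (g := fun z => τ (e.symm z)) (u := fun z => f (e.symm z)) (C := C) hV hxV
    (fun z hz => (hB z hz).1.differentiableAt.differentiableWithinAt)
    (fun k => h0 (((P277Z.At.ev he (p := fun w => ¬ τ w ≠ 0)).1 k).mono fun _ => not_not.1))
    (fun z hz => by
      obtain ⟨-, a, b⟩ := hB z hz.1
      have := (b hz.2).1 e ⟨he.1, e.map_target a⟩
      rw [e.right_inv a] at this
      exact this.differentiableAt.differentiableWithinAt)
    fun z hz a => ((hB z hz).2.2 a).2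
  refine ⟨fun w => U (e w), P277Z.hol_comp he (P268.analyticAt_of_differentiableOn hV' hU hx'), ?_⟩
  filter_upwards [(e.continuousAt he.2).eventually (hV'.mem_nhds hx'),
    e.open_source.mem_nhds he.2] with w h2 h3 h4
  have := e' _ h2 (by rwa [e.left_inv h3])
  rwa [e.left_inv h3] at this

theorem Hyp.dense (h : Hyp n G) : Dense (off G) := by
  classical
  have key : ∀ T : Finset κ, Dense {x | ∀ l ∈ T, x ∉ G l} := fun T => by
    induction T using Finset.induction_on with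
    | empty => simp
    | insert l T _ ih =>
      exact ((P277Z.Slc.Dv.dense_compl fun x => (h x).elim fun ζ k => ⟨ζ l, k l⟩).inter_of_isOpen_left
        ih (h.closed l).isOpen_compl).mono fun x hx => by simpa using hx
  simpa [off] using key Finset.univ

theorem Hyp.freq (h : Hyp n G) (x : X) : ∃ᶠ y in 𝓝 x, y ∈ off G :=
  mem_closure_iff_frequently.1 (h.dense x)

/-- holomorphic functions are determined by their values off `G` -/
theorem Hyp.eq (h : Hyp n G) {a b : X → ℂ} (ha : Hol n a x) (hb : Hol n b x)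
    (k : ∀ᶠ y in 𝓝 x, y ∈ off G → a y = b y) : ∀ᶠ y in 𝓝 x, a y = b y := by
  filter_upwards [ha.near, hb.near, k.eventually_nhds] with y h1 h2 h3
    using P277Z.Slc.Dv.eq_of_dense h.dense h1.cont h2.cont h3

/-- bounded holomorphic functions extend over `G` -/
theorem Hyp.riem (h : Hyp n G) {C : ℝ} (hu : ∀ᶠ y in 𝓝 x, y ∈ off G → Hol n u y ∧ ‖u y‖ ≤ C) :
    ∃ b, Hol n b x ∧ ∀ᶠ y in 𝓝 x, y ∈ off G → b y = u y := by
  obtain ⟨ζ, hζ⟩ := h x
  have h1 : ∀ᶠ y in 𝓝 x, y ∈ off G ↔ ∏ l, ζ l y ≠ 0 :=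
    (off_iff hζ).mono fun y hy => by rw [hy, Finset.prod_ne_zero_iff]; simp
  obtain ⟨b, h2, h3⟩ := P281Z.riem (τ := fun y => ∏ l, ζ l y) (f := u) (C := C)
    (Hol.prod _ fun l _ => (hζ l).hol)
    (fun k => h.freq x ((h1.and k).mono fun y hy k' => hy.1.1 k' hy.2))
    ((h1.and hu).mono fun y hy k => hy.2 (hy.1.2 k))
  exact ⟨b, h2, (h1.and h3).mono fun y hy k => hy.2 (hy.1.1 k)⟩

theorem hol_mono {y : X} (hζ : ∀ l, LEq n (G l) y (ζ l)) (hy : y ∈ off G) (k : κ → ℤ) :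
    Hol n (fun y => ∏ l, ζ l y ^ k l) y :=
  Hol.prod _ fun l _ => (hζ l).hol.zpow (mt (hζ l).mem.1 (hy l)) _

omit [TopologicalSpace X] in
theorem wt_single [DecidableEq κ] (ζ : κ → X → ℂ) (a : κ) (θ : ℝ) (y : X) :
    ∏ l, ‖ζ l y‖ ^ (if l = a then θ else 0) = ‖ζ a y‖ ^ θ := by
  rw [Finset.prod_eq_single a (fun l _ m => by rw [if_neg m, Real.rpow_zero])
    (fun m => (m (Finset.mem_univ _)).elim), if_pos rfl]

/-- **CODIM1**: it is enough to have the bound at a dense set of the points which lie on only one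
component; the bound improves to the next integers -/
theorem bdP_codim1 (hG : Snc n G) (hk : ∀ l, x ∈ G l → c l < k l + 1)
    (hu : ∀ᶠ y in 𝓝 x, y ∈ off G → Hol n u y)
    (hb : ∀ᶠ y in 𝓝 x, ∀ l, y ∈ G l → (∀ l', l' ≠ l → y ∉ G l') →
      ∃ᶠ z in 𝓝 y, z ∈ G l ∧ BdP n id G c u z) : BdP n id G (fun l => k l) u x := by
  classical
  obtain ⟨ζ, hζ, hI⟩ := hG x
  have hH := Hyp.of_snc hG
  have h0 : ∀ᶠ y in 𝓝 x, ∀ l, x ∉ G l → y ∉ G l := eventually_all.2 fun l =>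
    eventually_imp_distrib_left.2 (hζ l).not_mem_near
  obtain ⟨Θ, hΘ, hx, hU, hc⟩ := exists_co hI (Nat.add_sub_cancel' (ind_le hI))
    (hu.and (hb.and (h0.and (eventually_all.2 fun l => (hζ l).near))))
  have h1 : ∀ y ∈ Θ.source, ∀ a : {l // x ∈ G l}, (Θ y).1 a = 0 ↔ y ∈ G a := fun y hy a => by
    rw [hc y hy]; exact ((hU hy).2.2.2 a).mem
  have h2 : ∀ y ∈ Θ.source, (∀ a, (Θ y).1 a ≠ 0) ↔ y ∈ off G := fun y hy =>
    ⟨fun h l k => (em (x ∈ G l)).elim (fun m => h ⟨l, m⟩ ((h1 y hy ⟨l, m⟩).2 k))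
      fun m => (hU hy).2.2.1 l m k, fun h a k => h a ((h1 y hy a).1 k)⟩
  have h3 : Θ x = (0, (Θ x).2) := Prod.ext (funext fun a => (h1 x hx a).2 a.2) rfl
  obtain ⟨R, hR, hRT⟩ := nhds_basis_closedBall.mem_iff.1 (Θ.open_target.mem_nhds (Θ.map_source hx))
  rw [h3] at hRT
  obtain ⟨C, hC⟩ := Sc.flat (v := fun q => u (Θ.symm q) * ∏ l, ζ l (Θ.symm q) ^ k l) hR
    (θ := fun a : {l // x ∈ G l} => c a - k a) (fun a => by linarith [hk a a.2])
    (fun q hq h => by
      have t1 := Θ.map_target (hRT hq)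
      have t2 := (h2 _ t1).1 (by rwa [Θ.right_inv (hRT hq)])
      exact (hΘ.an_hol (hRT hq)
        (((hU t1).1 t2).mul (hol_mono (hU t1).2.2.2 t2 k))).differentiableAt)
    (fun a q hq m1 m2 => by
      have t0 := hRT (ball_subset_closedBall hq)
      have t1 := Θ.map_target t0
      have t2 : ∀ l' : κ, l' ≠ a → Θ.symm q ∉ G l' := fun l' m k => (em (x ∈ G l')).elim
        (fun m' => m2 ⟨l', m'⟩ (fun e => m (congrArg Subtype.val e))
          (Θ.right_inv t0 ▸ (h1 _ t1 ⟨l', m'⟩).2 k)) fun m' => (hU t1).2.2.1 l' m' k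
      have t3 := (hU t1).2.1 a ((h1 _ t1 a).1 (by rwa [Θ.right_inv t0])) t2
      have t4 : ∀ᶠ z in 𝓝 (Θ.symm q), ∀ l' : κ, l' ≠ a → z ∉ G l' := eventually_all.2 fun l' =>
        eventually_imp_distrib_left.2 fun m => (hH.closed l').isOpen_compl.mem_nhds (t2 l' m)
      have t5 := Θ.continuousAt t1
      rw [ContinuousAt, Θ.right_inv t0] at t5
      refine t5.frequently ((t3.and_eventually (t4.and (Θ.open_source.eventually_mem t1))).mono ?_)
      rintro z ⟨⟨r1, r2⟩, r3, r4⟩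
      obtain ⟨K, hK⟩ := (r2.mul_mono continuousAt_id (hU r4).2.2.2 k).mono continuousAt_id
        (c' := fun l : κ => if l = a then c a - k a else 0) (fun l m => by
          rw [if_pos (by_contra fun e => r3 l e m), by_contra fun e : ¬ l = (a : κ) => r3 l e m])
        ζ (hU r4).2.2.2
      refine ⟨(h1 z r4 a).2 r1, K, ?_⟩
      filter_upwards [(Θ.tendsto_symm r4).eventually hK,
        Θ.open_target.mem_nhds (Θ.map_source r4)] with w s1 s2 s3
      have s4 := s1 ((h2 _ (Θ.map_target s2)).1 (by rwa [Θ.right_inv s2]))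
      rw [wt_single] at s4
      have s5 : w.1 a = ζ a (Θ.symm w) := by
        rw [← congrFun (hc _ (Θ.map_target s2)) a, Θ.right_inv s2]
      rw [s5]
      exact s4)
  refine bdP_of_one continuousAt_id hζ (C := C) ?_
  rw [← h3] at hC
  filter_upwards [(Θ.continuousAt hx).eventually (ball_mem_nhds _ hR),
    Θ.open_source.mem_nhds hx] with y t1 t2 t3
  have t4 := hC _ t1 ((h2 y t2).2 t3)
  rw [Θ.left_inv t2, norm_mul, ← wt_int] at t4
  exact t4

theorem BdP.floor (hG : Snc n G) (h : BdP n id G c u x) (hk : ∀ l, x ∈ G l → c l < k l + 1)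
    (hu : ∀ᶠ y in 𝓝 x, y ∈ off G → Hol n u y) : BdP n id G (fun l => k l) u x :=
  bdP_codim1 hG hk hu ((h.near (.of_snc hG) (.of_forall fun _ => continuousAt_id)).mono
    fun y hy _ h1 _ => (frequently_pure.2 ⟨h1, hy⟩).filter_mono (pure_le_nhds y))

/-- **RIEM** -/
theorem BdP.ext (hG : Snc n G) (h : BdP n id G c u x) (hk : ∀ l, x ∈ G l → c l < k l + 1)
    (hu : ∀ᶠ y in 𝓝 x, y ∈ off G → Hol n u y) (hζ : ∀ l, LEq n (G l) x (ζ l)) :
    ∃ b, Hol n b x ∧ ∀ᶠ y in 𝓝 x, y ∈ off G → b y = u y * ∏ l, ζ l y ^ k l := by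
  obtain ⟨C, hC⟩ := h.floor hG hk hu ζ hζ
  refine (Hyp.of_snc hG).riem (C := C) ?_
  filter_upwards [hu, hC, eventually_all.2 fun l => (hζ l).near] with y h1 h2 h3 h4
  refine ⟨(h1 h4).mul (hol_mono h3 h4 k), ?_⟩
  rw [norm_mul, ← wt_int]
  exact h2 h4

theorem bdP_of_ext {b : X → ℂ} (hb : Hol n b x) (hζ : ∀ l, LEq n (G l) x (ζ l))
    (h : ∀ᶠ y in 𝓝 x, y ∈ off G → b y = u y * ∏ l, ζ l y ^ k l) :
    BdP n id G (fun l => k l) u x := by
  obtain ⟨C, -, hC⟩ := bdd_near hb.cont.norm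
  refine bdP_of_one continuousAt_id hζ (C := C) ?_
  filter_upwards [h, hC] with y h1 h2 h3
  rw [h1 h3, norm_mul, ← wt_int] at h2
  exact h2

variable {O : Set X} {L : Bd X} {s : L.ι → X → ℂ}

theorem SecP.ev (hL : IsLB n L) (hO : IsOpen O) (h : SecP n n id O L G c s) {a : L.ι} (hx : x ∈ O)
    (ha : x ∈ L.U a) : ∀ᶠ y in 𝓝 x, y ∈ off G → Hol n (s a) y := by
  filter_upwards [hO.mem_nhds hx, lb_near hL ha] with y h1 h2 using h.hol a y h1 h2

theorem SecP.floor (hG : Snc n G) (hL : IsLB n L) (hO : IsOpen O) (h : SecP n n id O L G c s)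
    (hk : ∀ l, c l < k l + 1) : SecP n n id O L G (fun l => k l) s :=
  ⟨h.hol, h.chg, fun _ _ hx ha => (h.bdP hx ha).floor hG (fun l _ => hk l) (h.ev hL hO hx ha)⟩

theorem secP_floor (hG : Snc n G) (hL : IsLB n L) (hO : IsOpen O) :
    SecP n n id O L G c s ↔ SecP n n id O L G (fun l => ⌊c l⌋) s :=
  ⟨fun h => h.floor hG hL hO fun l => Int.lt_floor_add_one (c l),
    fun h => h.mono continuous_id fun l => Int.floor_le (c l)⟩

/-- **CODIM1** for sections: the bound off a set `S` which contains no open piece of a `G l` -/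
theorem secP_codim1 (hG : Snc n G) (hL : IsLB n L) (hO : IsOpen O) {S : Set X}
    (hS : ∀ l, ∀ x ∈ O, x ∈ G l → (∀ l', l' ≠ l → x ∉ G l') → x ∈ closure (G l \ S))
    (h1 : ∀ a, ∀ x ∈ O, x ∈ L.U a → x ∈ off G → Hol n (s a) x)
    (h2 : ∀ a b, ∀ x ∈ O, x ∈ L.U a → x ∈ L.U b → x ∈ off G → s a x = L.g a b x * s b x)
    (h3 : ∀ a, ∀ x ∈ O, x ∈ L.U a → x ∉ S → BdP n id G c (s a) x) : SecP n n id O L G c s := by
  refine ⟨h1, h2, fun a x hx ha => BdP.mono continuousAt_id (bdP_codim1 hG (c := c)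
    (fun l _ => Int.lt_floor_add_one (c l)) ?_ ?_) fun l _ => Int.floor_le (c l)⟩
  · filter_upwards [hO.mem_nhds hx, lb_near hL ha] with y k1 k2 using h1 a y k1 k2
  · filter_upwards [hO.mem_nhds hx, lb_near hL ha] with y k1 k2 l k3 k4
    exact ((mem_closure_iff_frequently.1 (hS l y k1 k3 k4)).and_eventually
      ((hO.eventually_mem k1).and (lb_near hL k2))).mono fun z hz =>
        ⟨hz.1.1, h3 a z hz.2.1 hz.2.2 hz.1.2⟩

/-- **RIEM** for sections: without poles there is a holomorphic extension -/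
theorem SecP.ext (hG : Snc n G) (hL : IsLB n L) (hO : IsOpen O) (h : SecP n n id O L G c s)
    (hc : ∀ l, c l < 1) : ∃ s' : L.ι → X → ℂ, (∀ a, ∀ x ∈ O, x ∈ L.U a → Hol n (s' a) x) ∧
      (∀ a b, ∀ x ∈ O, x ∈ L.U a → x ∈ L.U b → s' a x = L.g a b x * s' b x) ∧
      ∀ a, ∀ x ∈ O, x ∈ L.U a → x ∈ off G → s' a x = s a x := by
  have hH := Hyp.of_snc hG
  have key : ∀ a, ∀ x ∈ O, x ∈ L.U a → Hol n (P277Z.Slc.Dv.ext (off G) (s a)) x ∧
      ∀ᶠ y in 𝓝 x, y ∈ off G → P277Z.Slc.Dv.ext (off G) (s a) y = s a y := fun a x hx ha => by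
    obtain ⟨ζ, hζ⟩ := hH x
    obtain ⟨b, h1, h2⟩ := (h.bdP hx ha).ext hG (k := 0) (fun l _ => by simpa using hc l)
      (h.ev hL hO hx ha) hζ
    have h3 : ∀ᶠ y in 𝓝 x, y ∈ off G → s a y = b y :=
      h2.mono fun y k k' => by simpa using (k k').symm
    have h4 := P277Z.Slc.Dv.ext_eq hH.dense h1 h3
    exact ⟨h1.congr h4, (h3.and h4).mono fun y k k' => k.2.symm.trans (k.1 k').symm⟩
  refine ⟨fun a => P277Z.Slc.Dv.ext (off G) (s a), fun a x hx ha => (key a x hx ha).1,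
    fun a b x hx ha hb => ?_, fun a x hx ha => (key a x hx ha).2.self_of_nhds⟩
  refine (hH.eq (key a x hx ha).1 ((lb_hol hL ha hb).mul (key b x hx hb).1) ?_).self_of_nhds
  filter_upwards [(key a x hx ha).2, (key b x hx hb).2, hO.mem_nhds hx, lb_near hL ha,
    lb_near hL hb] with y k1 k2 k3 k4 k5 k6
  rw [k1 k6, k2 k6, h.chg a b y k3 k4 k5 k6]

theorem SecP.isSec (hG : Snc n G) (hL : IsLB n L) (h : SecP n n id univ L G c s)
    (hc : ∀ l, c l < 1) : ∃ s', IsSec n L s' ∧ ∀ a, ∀ x ∈ L.U a, x ∈ off G → s' a x = s a x :=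
  let ⟨s', h1, h2, h3⟩ := h.ext hG hL isOpen_univ hc
  ⟨s', isSec_of (fun a x => h1 a x trivial) fun a b x => h2 a b x trivial,
    fun a x => h3 a x trivial⟩

end Vale.Agent.P281Z
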