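import Vale.Agent.P281Z.Sc.Pic
import Vale.Agent.P281Z.Sc.Riem
import Vale.Agent.P281Z.Mf.Sub

/-!
# P281Z, sections with poles: systems of sections and their rank
-/

open scoped Manifold ContDiff Topology
open Set Filter Function
open Vale.Agent.P272.K Vale.Agent.P285.H281.FD
open Vale.Agent.P277Z (Hol Nz at_chart hol_const)
open Vale.Agent.P277Z.Slc (lin triv Ind LEq Snc dd)
open Vale.Agent.P277.HD (pull)

set_option linter.unusedSectionVars false

noncomputable section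

namespace Vale.Agent.P281Z

variable {n p : ℕ} {X Y : Type} [TopologicalSpace X] [ChartedSpace (Cm n) X]
  [TopologicalSpace Y] [ChartedSpace (Cm p) Y] [IsManifold 𝓘(ℂ, Cm n) ω X]
  [IsManifold 𝓘(ℂ, Cm p) ω Y] {κ : Type} [Fintype κ] {G : κ → Set Y} {i : X → Y} {c c' : κ → ℝ}
  {x : X} {O : Set X} {L L' : Bd X} {j m : ℕ}

/-! ### identity theorems -/

theorem dense_of_loc {W : Set X} (hc : IsPreconnected W) {P : X → Prop}
    (h : ∀ x ∈ W, (∃ᶠ y in 𝓝 x, ∀ᶠ z in 𝓝 y, ¬ P z) → ∀ᶠ z in 𝓝 x, ¬ P z) (h0 : ∃ x ∈ W, P x) :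
    W ⊆ closure {x | P x} := fun x hx => by
  by_contra k
  obtain ⟨x₀, h1, h2⟩ := h0
  refine interior_subset (s := {z | ¬ P z}) (hc.subset_of_closure_inter_subset isOpen_interior
    ⟨x, hx, mem_interior_iff_mem_nhds.2 ?_⟩ (fun y hy => mem_interior_iff_mem_nhds.2 (h y hy.2 ?_))
    h1) h2
  · exact not_frequently.1 (mt mem_closure_iff_frequently.2 k)
  · exact (mem_closure_iff_frequently.1 hy.1).mono fun z hz => mem_interior_iff_mem_nhds.1 hz

theorem hol_id {a : X → ℂ} (ha : Hol n a x) (h : ∃ᶠ y in 𝓝 x, ∀ᶠ z in 𝓝 y, a z = 0) :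
    ∀ᶠ y in 𝓝 x, a y = 0 :=
  by_contra fun k => let ⟨_, h1, h2⟩ := (h.and_eventually (Nz.near k ha)).exists; h2 h1

theorem Hyp.thin_pre [PreconnectedSpace X] (hG : Hyp p G) (hi : HolM n p i)
    (h : ∃ x, i x ∈ off G) : Thin n (i ⁻¹' off G)ᶜ := by
  rw [← preimage_compl, compl_off]
  exact Thin.pre_of_ex (.iUnion fun l => an_of_leq fun y => (hG y).elim fun ζ k => ⟨ζ l, k l⟩) hi
    (h.imp fun x hx => by simpa [off] using hx)

theorem Hyp.dense_pre [PreconnectedSpace X] (hG : Hyp p G) (hi : HolM n p i)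
    (h : ∃ x, i x ∈ off G) : Dense (i ⁻¹' off G) := compl_compl (i ⁻¹' off G) ▸ (hG.thin_pre hi h).2

theorem Hyp.preconn_pre [PreconnectedSpace X] (hG : Hyp p G) (hi : HolM n p i)
    (h : ∃ x, i x ∈ off G) : IsPreconnected (i ⁻¹' off G) :=
  compl_compl (i ⁻¹' off G) ▸ (hG.thin_pre hi h).preconn

theorem SecP.near {s : L.ι → X → ℂ} (hG : Hyp p G) (hi : Continuous i) (hL : IsLB n L)
    (h : SecP n p i univ L G c s) (hx : i x ∈ off G) {a : L.ι} (ha : x ∈ L.U a) :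
    ∀ᶠ y in 𝓝 x, i y ∈ off G ∧ y ∈ L.U a ∧ (NZ L s y ↔ s a y ≠ 0) := by
  filter_upwards [(hG.isOpen.preimage hi).mem_nhds hx, lb_near hL ha] with y h1 h2
    using ⟨h1, h2, h.nz_iff hL trivial h1 h2⟩

theorem SecP.open_nz {s : L.ι → X → ℂ} (hG : Hyp p G) (hi : Continuous i) (hL : IsLB n L)
    (h : SecP n p i univ L G c s) : IsOpen {x | i x ∈ off G ∧ NZ L s x} :=
  isOpen_iff_mem_nhds.2 fun x hx => by
    obtain ⟨a, ha⟩ := hL.cover x
    filter_upwards [h.near hG hi hL hx.1 ha, (h.hol a x trivial ha hx.1).ne_near (hx.2 a ha)]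
      with y h1 h2 using ⟨h1.1, h1.2.2.2 h2⟩

/-- a section which is not zero does not vanish on a dense open set -/
theorem SecP.dense_nz [PreconnectedSpace X] {s : L.ι → X → ℂ} (hG : Hyp p G) (hi : HolM n p i)
    (hL : IsLB n L) (h : SecP n p i univ L G c s) (h0 : ∃ x, i x ∈ off G ∧ NZ L s x) :
    Dense {x | i x ∈ off G ∧ NZ L s x} := by
  have h1 : ∃ x, i x ∈ off G := h0.imp fun _ k => k.1
  refine dense_closure.1 ((hG.dense_pre hi h1).mono (dense_of_loc (hG.preconn_pre hi h1)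
    (fun x hx k => ?_) (h0.imp fun _ k => ⟨k.1, k⟩)))
  obtain ⟨a, ha⟩ := hL.cover x
  have h2 := h.near hG hi.cont hL hx ha
  filter_upwards [h2, hol_id (h.hol a x trivial ha hx)
    ((k.and_eventually h2.eventually_nhds).mono fun y hy => (hy.1.and hy.2).mono fun z hz =>
      by_contra fun e => hz.1 ⟨hz.2.1, hz.2.2.2.2 e⟩)] with y h3 h4 h5 using h5.2 a h3.2.1 h4

/-! ### the rank -/

theorem ind_iff_minor {α : Type} [Fintype α] [DecidableEq α] {h : α → X → ℂ}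
    (hh : ∀ b, Hol n (h b) x) {e : Chart n X} (he : At e x) : Ind n h x ↔
      ∃ τ : α → Fin n, (Matrix.of fun k b => dd (h b) e x (Pi.single (τ k) 1)).det ≠ 0 := by
  constructor
  · intro hi
    have h1 := (P277Z.Slc.ind_iff_surj _).1 (hi.2 e he)
    choose v hv using fun k : α => h1 (Pi.single k 1)
    by_contra! k
    let T : Cm n →ₗ[ℂ] α → ℂ := LinearMap.pi fun b => (dd (h b) e x : Cm n →ₗ[ℂ] ℂ)
    have h2 : (Matrix.detRowAlternating (n := α) (R := ℂ)).toMultilinearMap.compLinearMap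
        (fun _ => T) = 0 := Module.Basis.ext_multilinear (fun _ => Pi.basisFun ℂ (Fin n)) fun τ => by
      have h5 : (Matrix.of fun k => T (Pi.single (τ k) 1)).det = 0 := k τ
      simp only [Pi.basisFun_apply]
      exact h5
    have h3 : (Matrix.of fun k => T (v k)).det = 0 := DFunLike.congr_fun h2 v
    have h4 : (Matrix.of fun k => T (v k)) = 1 := by
      ext k b
      exact (congrFun (hv k) b).trans (by simp [Matrix.one_apply, Pi.single_apply, eq_comm])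
    simp [h4] at h3
  · rintro ⟨τ, hτ⟩
    refine P277Z.Slc.Ind.of_chart hh he (Fintype.linearIndependent_iff.2 fun g hg => ?_)
    refine congrFun (Matrix.eq_zero_of_mulVec_eq_zero hτ (funext fun k => ?_))
    simpa [Matrix.mulVec, dotProduct, mul_comm] using
      congrArg (fun T : Cm n →L[ℂ] ℂ => T (Pi.single (τ k) 1)) hg

theorem hol_dd {a : X → ℂ} (ha : Hol n a x) {e : Chart n X} (he : At e x) (v : Cm n) :
    Hol n (fun y => dd a e y v) x :=
  P277Z.hol_comp (f := fun z => fderiv ℂ (fun z => a (e.symm z)) z v) he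
    (((ContinuousLinearMap.apply ℂ ℂ v).analyticAt _).comp (ha e he).fderiv)

theorem hol_det' {α : Type} [Fintype α] [DecidableEq α] {M : X → Matrix α α ℂ}
    (h : ∀ k b, Hol n (fun y => M y k b) x) : Hol n (fun y => (M y).det) x := by
  simp only [Matrix.det_apply']
  exact Hol.sum _ fun σ _ => (hol_const _ x).mul (Hol.prod _ fun k _ => h _ k)

theorem dd_div {a b : X → ℂ} (ha : Hol n a x) (hb : Hol n b x) (h0 : b x ≠ 0) {e : Chart n X}
    (he : At e x) (v : Cm n) :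
    dd (fun y => a y / b y) e x v = (b x ^ 2)⁻¹ * (b x * dd a e x v - a x * dd b e x v) := by
  have h1 : dd a e x = dd (fun y => a y / b y * b y) e x :=
    P277Z.Slc.dd_congr ((hb.ne_near h0).mono fun y hy => (div_mul_cancel₀ _ hy).symm) he
  have h2 := fderiv_fun_mul ((ha.div hb h0) e he).differentiableAt (hb e he).differentiableAt
  rw [e.left_inv he.2] at h2
  have h3 : dd a e x v = a x / b x * dd b e x v + b x * dd (fun y => a y / b y) e x v :=
    (DFunLike.congr_fun h1 v).trans (DFunLike.congr_fun h2 v)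
  rw [h3]
  field_simp
  ring

variable (n) in
/-- the ratios have rank `j` at `x` -/
def RkAt (L : Bd X) {j : ℕ} (s : Fin (j + 1) → L.ι → X → ℂ) (x : X) : Prop :=
  ∃ a, x ∈ L.U a ∧ s 0 a x ≠ 0 ∧ Ind n (fun (b : Fin j) y => s b.succ a y / s 0 a y) x

variable {s : Fin (j + 1) → L.ι → X → ℂ} {s' : Fin (j + 1) → L'.ι → X → ℂ}

theorem rk_iff : Rk n O L s ↔ ∃ x ∈ O, RkAt n L s x := Iff.rfl

/-- a common factor does not change the rank -/
theorem rkAt_of {a : L.ι} {a' : L'.ι} (h0 : s 0 a x ≠ 0)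
    (hI : Ind n (fun (b : Fin j) y => s b.succ a y / s 0 a y) x) (ha' : x ∈ L'.U a') {w : X → ℂ}
    (hw : ∀ᶠ y in 𝓝 x, w y ≠ 0 ∧ ∀ b, s' b a' y = w y * s b a y) : RkAt n L' s' x :=
  ⟨a', ha', by rw [hw.self_of_nhds.2]; exact mul_ne_zero hw.self_of_nhds.1 h0,
    ind_congr hI fun b => hw.mono fun y k => by rw [k.2, k.2, mul_div_mul_left _ _ k.1]⟩

theorem RkAt.frame (hG : Hyp p G) (hi : Continuous i) (hL : IsLB n L) {d : Fin (j + 1) → κ → ℝ}
    (hs : ∀ b, SecP n p i univ L G (d b) (s b)) (hx : i x ∈ off G) (h : RkAt n L s x) {a : L.ι}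
    (ha : x ∈ L.U a) :
    s 0 a x ≠ 0 ∧ Ind n (fun (b : Fin j) y => s b.succ a y / s 0 a y) x := by
  obtain ⟨a', h1, h2, h3⟩ := h
  have hw : ∀ᶠ y in 𝓝 x, L.g a a' y ≠ 0 ∧ ∀ b, s b a y = L.g a a' y * s b a' y := by
    filter_upwards [(hG.isOpen.preimage hi).mem_nhds hx, lb_near hL ha, lb_near hL h1]
      with y k1 k2 k3 using ⟨hL.ne_zero _ _ y k2 k3, fun b => (hs b).chg a a' y trivial k2 k3 k1⟩
  exact ⟨by rw [hw.self_of_nhds.2]; exact mul_ne_zero hw.self_of_nhds.1 h2,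
    ind_congr h3 fun b => hw.mono fun y k => by rw [k.2, k.2, mul_div_mul_left _ _ k.1]⟩

theorem open_rk (hG : Hyp p G) (hi : Continuous i) (hL : IsLB n L)
    (hs : SecP n p i univ L G c (s 0)) : IsOpen {x | i x ∈ off G ∧ RkAt n L s x} :=
  isOpen_iff_mem_nhds.2 fun x ⟨hx, a, h1, h2, h3⟩ => by
    filter_upwards [(hG.isOpen.preimage hi).mem_nhds hx, lb_near hL h1,
      (hs.hol a x trivial h1 hx).ne_near h2, h3.near] with y k1 k2 k3 k4 using ⟨k1, a, k2, k3, k4⟩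

/-- the point of the rank condition can be moved into a dense set -/
theorem Rk.move (hG : Hyp p G) (hi : Continuous i) (hL : IsLB n L)
    (hs : SecP n p i univ L G c (s 0)) (h : Rk n (i ⁻¹' off G) L s) {D : Set X} (hD : Dense D) :
    ∃ x ∈ D, i x ∈ off G ∧ RkAt n L s x :=
  hD.exists_mem_open (open_rk hG hi hL hs) h

/-- the rank is maximal on a dense open set -/
theorem dense_rk [PreconnectedSpace X] (hG : Hyp p G) (hi : HolM n p i) (hL : IsLB n L)
    {d : Fin (j + 1) → κ → ℝ} (hs : ∀ b, SecP n p i univ L G (d b) (s b))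
    (h0 : Rk n (i ⁻¹' off G) L s) : Dense {x | i x ∈ off G ∧ RkAt n L s x} := by
  have h1 : ∃ x, i x ∈ off G := h0.imp fun _ k => k.1
  refine dense_closure.1 ((hG.dense_pre hi h1).mono (dense_of_loc (hG.preconn_pre hi h1)
    (fun x hx k => ?_) (h0.imp fun _ k => ⟨k.1, k⟩)))
  obtain ⟨a, ha⟩ := hL.cover x
  have he := at_chart (n := n) x
  set e := chartAt (Cm n) x
  let D : (Fin j → Fin n) → X → ℂ := fun τ y => s 0 a y * (Matrix.of fun k (b : Fin j) =>
    s 0 a y * dd (s b.succ a) e y (Pi.single (τ k) 1) -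
      s b.succ a y * dd (s 0 a) e y (Pi.single (τ k) 1)).det
  have h2 : ∀ᶠ y in 𝓝 x, (i y ∈ off G ∧ RkAt n L s y) ↔ ∃ τ, D τ y ≠ 0 := by
    filter_upwards [(hG.isOpen.preimage hi.cont).mem_nhds hx, lb_near hL ha, at_near he]
      with y k1 k2 k3
    have k4 : ∀ b, Hol n (s b a) y := fun b => (hs b).hol a y trivial k2 k1
    have k5 : s 0 a y ≠ 0 → (Ind n (fun (b : Fin j) y => s b.succ a y / s 0 a y) y ↔
        ∃ τ, D τ y ≠ 0) := fun k6 => by
      rw [ind_iff_minor (fun b => (k4 _).div (k4 0) k6) k3]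
      refine exists_congr fun τ => ?_
      simp only [dd_div (k4 _) (k4 0) k6 k3]
      have k7 : ∀ (r : ℂ) (A : Fin j → Fin j → ℂ), (Matrix.of fun k b => r * A k b).det =
          (∏ _k : Fin j, r) * (Matrix.of A).det :=
        fun r A => Matrix.det_mul_column (fun _ => r) (Matrix.of A)
      rw [k7, mul_ne_zero_iff, mul_ne_zero_iff]
      exact and_congr_left fun _ => iff_of_true
        (Finset.prod_ne_zero_iff.2 fun _ _ => inv_ne_zero (pow_ne_zero 2 k6)) k6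
    exact ⟨fun k => let k6 := k.2.frame hG hi.cont hL hs k1 k2; (k5 k6.1).1 k6.2,
      fun ⟨τ, k⟩ => ⟨k1, a, k2, left_ne_zero_of_mul k, (k5 (left_ne_zero_of_mul k)).2 ⟨τ, k⟩⟩⟩
  have k4 : ∀ b, Hol n (s b a) x := fun b => (hs b).hol a x trivial ha hx
  have h3 : ∀ τ, ∀ᶠ y in 𝓝 x, D τ y = 0 := fun τ => hol_id
    ((k4 0).mul (hol_det' fun k b => ((k4 0).mul (hol_dd (k4 _) he _)).sub
      ((k4 _).mul (hol_dd (k4 0) he _))))
    ((k.and_eventually h2.eventually_nhds).mono fun y hy => (hy.1.and hy.2).mono fun z hz =>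
      by_contra fun e => hz.1 (hz.2.2 ⟨τ, e⟩))
  filter_upwards [h2, eventually_all.2 h3] with y k1 k2 k3 using (k1.1 k3).elim fun τ k => k (k2 τ)

theorem RkAt.comp {m : ℕ} {X' : Type} [TopologicalSpace X'] [ChartedSpace (Cm m) X']
    [IsManifold 𝓘(ℂ, Cm m) ω X'] {f : X' → X} {x' : X'} (h : RkAt n L s (f x'))
    (hf : HolA m n f x') (hs : Sbm m n f x') :
    RkAt m (pull f L) (fun b a y => s b a (f y)) x' :=
  let ⟨a, h1, h2, h3⟩ := h
  ⟨a, h1, h2, hs.ind hf h3⟩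

theorem RkAt.of_comp {m : ℕ} {X' : Type} [TopologicalSpace X'] [ChartedSpace (Cm m) X']
    [IsManifold 𝓘(ℂ, Cm m) ω X'] {f : X' → X} {x' : X'}
    (h : RkAt m (pull f L) (fun b a y => s b a (f y)) x') (hf : HolA m n f x')
    (hs : ∀ b a, f x' ∈ L.U a → Hol n (s b a) (f x')) : RkAt n L s (f x') :=
  let ⟨a, h1, h2, h3⟩ := h
  ⟨a, h1, h2, ind_of_comp hf (fun _ => (hs _ a h1).div (hs 0 a h1) h2) h3⟩

/-! ### systems -/

variable (n p) in
/-- `L + i^* (∑ c l • G l)` has sections whose ratios have rank `j` -/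
def Sy (i : X → Y) (L : Bd X) (G : κ → Set Y) (c : κ → ℝ) (j : ℕ) : Prop :=
  ∃ s : Fin (j + 1) → L.ι → X → ℂ, (∀ b, SecP n p i univ L G c (s b)) ∧ Rk n (i ⁻¹' off G) L s

theorem kapM_iff : KapM n p i L G c m j ↔ Sy n p i (L.pow m) G (fun l => m * c l) j := Iff.rfl

theorem sy_of (s : Fin (j + 1) → L.ι → X → ℂ) (h : ∀ b, SecP n p i univ L G c (s b))
    (hx : i x ∈ off G) (k : RkAt n L s x) : Sy n p i L G c j := ⟨s, h, x, hx, k⟩

theorem Sy.ex (h : Sy n p i L G c j) : ∃ x, i x ∈ off G :=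
  let ⟨_, _, x, k, _⟩ := h; ⟨x, k⟩

theorem Sy.le {j' : ℕ} (h : Sy n p i L G c j') (k : j ≤ j') : Sy n p i L G c j :=
  let ⟨_, h1, h2⟩ := h; ⟨_, fun _ => h1 _, h2.mono k⟩

theorem Sy.mono (hi : Continuous i) (h : Sy n p i L G c j) (k : ∀ l, c l ≤ c' l) :
    Sy n p i L G c' j := h.imp fun _ h => ⟨fun b => (h.1 b).mono hi k, h.2⟩

theorem sy_zero (hL : IsLB n L) : Sy n p i L G c 0 ↔
    ∃ s, SecP n p i univ L G c s ∧ ∃ x, i x ∈ off G ∧ NZ L s x :=
  ⟨fun ⟨s, h1, x, h2, _, h3, h4, _⟩ => ⟨s 0, h1 0, x, h2, ((h1 0).nz_iff hL trivial h2 h3).2 h4⟩,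
    fun ⟨s, h1, x, h2, h3⟩ => let ⟨a, ha⟩ := hL.cover x
      ⟨fun _ => s, fun _ => h1, x, h2, a, ha, h3 a ha, fun b => b.elim0,
        fun _ _ => linearIndependent_empty_type⟩⟩

theorem Sy.iso (hG : Hyp p G) (hi : Continuous i) (hL : IsLB n L) (hL' : IsLB n L')
    (k : LIso n L L') (h : Sy n p i L' G c j) : Sy n p i L G c j := by
  obtain ⟨t, k⟩ := k
  obtain ⟨s, h1, x, h2, b, h3, h4, h5⟩ := h
  obtain ⟨a, ha⟩ := hL.cover x
  have hO := hG.isOpen.preimage hi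
  refine sy_of (fun b => LRel.map hL' t (s b)) (fun b => k.secP hL hL' isOpen_univ hO (h1 b)) h2
    (rkAt_of h4 h5 ha (w := t a b) ?_)
  filter_upwards [hO.mem_nhds h2, lb_near hL ha, lb_near hL' h3] with y k1 k2 k3
    using ⟨k.ne a b y k2 k3, fun r => k.map_eq hL hL'
      (fun b b' m m' => (h1 r).chg b b' y trivial m m' k1) k2 k3⟩

theorem Sy.of_cls (hG : Hyp p G) (hi : Continuous i) (hL : IsLB n L) (hL' : IsLB n L')
    (h : Sy n p i L' G c j) (k : cls n L = cls n L') (k' : ∀ l, c l ≤ c' l) : Sy n p i L G c' j :=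
  (h.iso hG hi hL hL' ((cls_eq hL hL').1 k)).mono hi k'

/-- multiplication by a section which does not vanish on a dense set -/
theorem Sy.mul_of_dense (hG : Hyp p G) (hi : Continuous i) (hL : IsLB n L) (hL' : IsLB n L')
    (h : Sy n p i L G c j) {t : L'.ι → X → ℂ} (ht : SecP n p i univ L' G c' t)
    (hd : Dense {x | i x ∈ off G → NZ L' t x}) :
    Sy n p i (L.mul L') G (fun l => c l + c' l) j := by
  obtain ⟨s, h1, h2⟩ := h
  obtain ⟨x, k1, k2, a, k3, k4, k5⟩ := h2.move hG hi hL (h1 0) hd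
  obtain ⟨a', ha'⟩ := hL'.cover x
  exact sy_of (fun b a x => s b a.1 x * t a.2 x) (fun b => (h1 b).mul hi ht) k2
    (rkAt_of (L' := L.mul L') (a' := (a, a')) k4 k5 ⟨k3, ha'⟩ (w := t a')
      (((ht.hol a' x trivial ha' k2).ne_near (k1 k2 a' ha')).mono fun y k =>
        ⟨k, fun _ => mul_comm _ _⟩))

theorem Sy.mul [PreconnectedSpace X] (hG : Hyp p G) (hi : HolM n p i) (hL : IsLB n L)
    (hL' : IsLB n L') (h : Sy n p i L G c j) (h' : Sy n p i L' G c' 0) :
    Sy n p i (L.mul L') G (fun l => c l + c' l) j :=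
  let ⟨_, h1, h2⟩ := (sy_zero hL').1 h'
  h.mul_of_dense hG hi.cont hL hL' h1 ((h1.dense_nz hG hi hL' h2).mono fun _ k _ => k.2)

theorem Sy.pow (hi : Continuous i) (h : Sy n p i L G c j) {k : ℕ} (hk : 0 < k) :
    Sy n p i (L.pow k) G (fun l => k * c l) j := by
  obtain ⟨k, rfl⟩ := Nat.exists_eq_succ_of_ne_zero hk.ne'
  obtain ⟨s, h1, x, h2, a, h3, h4, h5⟩ := h
  refine sy_of (fun b a x => s 0 a x ^ k * s b a x) (fun b => ⟨fun a x _ ha hx =>
    (((h1 0).hol a x trivial ha hx).pow k).mul ((h1 b).hol a x trivial ha hx),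
    fun a a' x _ ha ha' hx => ?_, fun a x _ ha => ?_⟩) h2
    (rkAt_of (L' := L.pow (k + 1)) h4 h5 h3 (w := fun y => s 0 a y ^ k)
      ((((h1 0).hol a x trivial h3 h2).ne_near h4).mono fun y m => ⟨pow_ne_zero k m, fun _ => rfl⟩))
  · rw [(h1 0).chg a a' x trivial ha ha' hx, (h1 b).chg a a' x trivial ha ha' hx]
    show _ = L.g a a' x ^ (k + 1) * _
    ring
  · exact ((((h1 0).bdP trivial ha).pow hi.continuousAt k).mul hi.continuousAt
      ((h1 b).bdP trivial ha)).mono hi.continuousAt fun l _ => le_of_eq (by push_cast; ring)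

/-- pull back by a map which is a submersion over a dense set -/
theorem Sy.comp {m : ℕ} {X' : Type} [TopologicalSpace X'] [ChartedSpace (Cm m) X']
    [IsManifold 𝓘(ℂ, Cm m) ω X'] {f : X' → X} (hG : Hyp p G) (hi : Continuous i) (hL : IsLB n L)
    (h : Sy n p i L G c j) (hf : HolM m n f) (hd : Dense (f '' {x | Sbm m n f x})) :
    Sy m p (fun x => i (f x)) (pull f L) G c j := by
  obtain ⟨s, h1, h2⟩ := h
  obtain ⟨_, ⟨x, k1, rfl⟩, k2, k3⟩ := h2.move hG hi hL (h1 0) hd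
  exact ⟨_, fun b => (h1 b).comp hf, x, k2, k3.comp (hf.at x) k1⟩

theorem sy_iff_pull (hi : Continuous i) (hT : Trv n p i G) :
    Sy n p i L G c j ↔ Sy n n id L (fun l => i ⁻¹' G l) c j :=
  exists_congr fun _ => and_congr_left fun _ => forall_congr' fun _ => secP_iff_pull hi hT

/-- the monomials in the canonical sections -/
theorem Sy.div (hi : HolM n p i) (hL : IsLB n L) (h : Sy n p i L G c j) {D : κ → Bd Y}
    {σ : ∀ l, (D l).ι → Y → ℂ} (hD : ∀ l, P277Z.Slc.IsDiv p (G l) (D l) (σ l)) (k : κ → ℤ) :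
    Sy n p i (L.mul (pull i (lin D k))) G (fun l => c l - k l) j := by
  have hG : Hyp p G := fun y => by
    choose ζ hζ using fun l => (hD l).ex y
    exact ⟨ζ, hζ⟩
  obtain ⟨h1, h2⟩ := secP_div (O := univ) hi hD k
  simpa only [sub_eq_add_neg] using h.mul_of_dense hG hi.cont hL
    (hi.lb (lb_lin (fun l => (hD l).lb) k)) h1 (dense_univ.mono fun x _ => h2 x)

theorem KapM.mul_right (hG : Hyp p G) (hi : Continuous i) (hL : IsLB n L)
    (h : KapM n p i L G c m j) {k : ℕ} (hk : 0 < k) : KapM n p i L G c (m * k) j :=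
  (Sy.pow hi h hk).of_cls hG hi (lb_pow hL _) (lb_pow (lb_pow hL m) k)
    (by rw [cls_pow hL, cls_pow (lb_pow hL m), cls_pow hL, mul_nsmul])
    fun l => le_of_eq (by push_cast; ring)

theorem Sy.kapL (hG : Hyp p G) (hi : Continuous i) (hL : IsLB n L) (hL' : IsLB n L')
    (h : Sy n p i L' G c' j) (hm : 0 < m) (k : cls n L' = m • cls n L)
    (k' : ∀ l, c' l ≤ m * c l) : KapL n p i L G c j :=
  ⟨m, hm, h.of_cls hG hi (lb_pow hL m) hL' (by rw [cls_pow hL, k]) k'⟩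

/-- `m L = m' L'` -/
theorem KapL.of_cls (hG : Hyp p G) (hi : Continuous i) (hL : IsLB n L) (hL' : IsLB n L')
    (h : KapL n p i L' G c' j) {m' : ℕ} (hm : 0 < m) (hm' : 0 < m')
    (k : m' • cls n L' = m • cls n L) (k' : ∀ l, m' * c' l ≤ m * c l) : KapL n p i L G c j := by
  obtain ⟨r, hr, h⟩ := h
  refine Sy.kapL hG hi hL (lb_pow hL' _) (h.mul_right hG hi hL' hm') (mul_pos hr hm)
    (by rw [cls_pow hL', mul_nsmul', k, mul_nsmul']) fun l => ?_
  push_cast
  rw [mul_assoc, mul_assoc]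
  exact mul_le_mul_of_nonneg_left (k' l) (Nat.cast_nonneg r)

theorem KapL.mul [PreconnectedSpace X] (hG : Hyp p G) (hi : HolM n p i) (hL : IsLB n L)
    (hL' : IsLB n L') (h : KapL n p i L G c j) (h' : KapL n p i L' G c' 0) :
    KapL n p i (L.mul L') G (fun l => c l + c' l) j := by
  obtain ⟨r, hr, h⟩ := h
  obtain ⟨r', hr', h'⟩ := h'
  refine (Sy.mul hG hi (lb_pow hL _) (lb_pow hL' _) (h.mul_right hG hi.cont hL hr')
    (h'.mul_right hG hi.cont hL' hr)).kapL hG hi.cont (lb_mul hL hL')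
    (lb_mul (lb_pow hL _) (lb_pow hL' _)) (mul_pos hr hr') ?_ fun l => le_of_eq (by push_cast; ring)
  rw [cls_mul (lb_pow hL _) (lb_pow hL' _), cls_pow hL, cls_pow hL', cls_mul hL hL', nsmul_add,
    mul_comm r' r]

end Vale.Agent.P281Z
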