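import Vale.Agent.P281Z.Sc.Bd

/-!
# P281Z, sections with poles: isomorphisms of line bundles, the Picard group
-/

open scoped Manifold ContDiff Topology
open Set Filter Function
open Vale.Agent.P272.K Vale.Agent.P285.H281.FD
open Vale.Agent.P277Z (Hol Nz at_chart hol_const)
open Vale.Agent.P277Z.Slc (lin triv isLB_triv Ind LEq Snc)
open Vale.Agent.P277.HD (pull)

set_option linter.unusedSectionVars false

noncomputable section

namespace Vale.Agent.P281Z

variable {n : ℕ} {X : Type} [TopologicalSpace X] [ChartedSpace (Cm n) X]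
  [IsManifold 𝓘(ℂ, Cm n) ω X] {L L' L'' M M' : Bd X}

variable (n) in
/-- `s a = t a b * s' b` is an isomorphism of `L'` onto `L` -/
structure LRel (L L' : Bd X) (t : L.ι → L'.ι → X → ℂ) : Prop where
  hol : ∀ a b x, x ∈ L.U a → x ∈ L'.U b → Hol n (t a b) x
  ne : ∀ a b x, x ∈ L.U a → x ∈ L'.U b → t a b x ≠ 0
  chg : ∀ a a' b b' x, x ∈ L.U a → x ∈ L.U a' → x ∈ L'.U b → x ∈ L'.U b' →
    t a b x * L'.g b b' x = L.g a a' x * t a' b' x

variable (n) in
/-- isomorphic line bundles -/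
def LIso (L L' : Bd X) : Prop := ∃ t, LRel n L L' t

/-- a family which is given in all frames of `L'` and does not depend on the frame -/
theorem glue (hL' : IsLB n L') {T : Type} (F : L'.ι → X → T) (P : X → Prop)
    (h : ∀ b b' x, x ∈ L'.U b → x ∈ L'.U b' → P x → F b x = F b' x) :
    ∃ f : X → T, ∀ b x, x ∈ L'.U b → P x → f x = F b x :=
  ⟨fun x => F (hL'.cover x).choose x, fun _ x hb hx => h _ _ x (hL'.cover x).choose_spec hb hx⟩

/-- refinement and change of the frames -/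
theorem liso_of_map (hL' : IsLB n L') (φ : L.ι → L'.ι) (w : L.ι → X → ℂ)
    (hU : ∀ a, L.U a ⊆ L'.U (φ a)) (hw : ∀ a, ∀ x ∈ L.U a, Hol n (w a) x ∧ w a x ≠ 0)
    (hg : ∀ a a' x, x ∈ L.U a → x ∈ L.U a' →
      w a x * L'.g (φ a) (φ a') x = L.g a a' x * w a' x) : LIso n L L' :=
  ⟨fun a b x => w a x * L'.g (φ a) b x,
    fun a _ x ha hb => (hw a x ha).1.mul (lb_hol hL' (hU a ha) hb),
    fun a _ x ha hb => mul_ne_zero (hw a x ha).2 (hL'.ne_zero _ _ x (hU a ha) hb),
    fun a a' b b' x ha ha' hb hb' => by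
      rw [mul_assoc, hL'.cocycle _ _ _ x (hU a ha) hb hb', ← mul_assoc, ← hg a a' x ha ha',
        mul_assoc, hL'.cocycle _ _ _ x (hU a ha) (hU a' ha') hb']⟩

theorem liso_of_map' (hL' : IsLB n L') (φ : L.ι → L'.ι) (hU : ∀ a, L.U a ⊆ L'.U (φ a))
    (hg : ∀ a a' x, x ∈ L.U a → x ∈ L.U a' → L'.g (φ a) (φ a') x = L.g a a' x) : LIso n L L' :=
  liso_of_map hL' φ (fun _ _ => 1) hU (fun _ x _ => ⟨hol_const 1 x, one_ne_zero⟩)
    fun a a' x ha ha' => by rw [one_mul, mul_one, hg a a' x ha ha']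

theorem LIso.refl (hL : IsLB n L) : LIso n L L :=
  liso_of_map' hL id (fun _ => Subset.rfl) fun _ _ _ _ _ => rfl

theorem LRel.symm {t : L.ι → L'.ι → X → ℂ} (h : LRel n L L' t) :
    LRel n L' L fun b a x => (t a b x)⁻¹ where
  hol b a x hb ha := (h.hol a b x ha hb).inv (h.ne a b x ha hb)
  ne b a x hb ha := inv_ne_zero (h.ne a b x ha hb)
  chg b b' a a' x hb hb' ha ha' := by
    have h1 := h.chg a a' b b' x ha ha' hb hb'
    have h2 := h.ne a b x ha hb
    have h3 := h.ne a' b' x ha' hb'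
    field_simp
    rw [← h1, mul_comm]

theorem LIso.symm (h : LIso n L L') : LIso n L' L := h.elim fun _ k => ⟨_, k.symm⟩

theorem LRel.right (hL : IsLB n L) {t : L.ι → L'.ι → X → ℂ} (h : LRel n L L' t) {a : L.ι}
    {b b' : L'.ι} {x : X} (ha : x ∈ L.U a) (hb : x ∈ L'.U b) (hb' : x ∈ L'.U b') :
    t a b x * L'.g b b' x = t a b' x := by
  rw [h.chg a a b b' x ha ha hb hb', lb_self hL ha, one_mul]

theorem LRel.left (hL' : IsLB n L') {t : L.ι → L'.ι → X → ℂ} (h : LRel n L L' t) {a a' : L.ι}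
    {b : L'.ι} {x : X} (ha : x ∈ L.U a) (ha' : x ∈ L.U a') (hb : x ∈ L'.U b) :
    t a b x = L.g a a' x * t a' b x := by
  rw [← h.chg a a' b b x ha ha' hb hb, lb_self hL' hb, mul_one]

theorem LIso.trans (hL : IsLB n L) (hL' : IsLB n L') (hL'' : IsLB n L'') (h : LIso n L L')
    (h' : LIso n L' L'') : LIso n L L'' := by
  obtain ⟨t, h⟩ := h
  obtain ⟨t', h'⟩ := h'
  choose f hf using fun (a : L.ι) (c : L''.ι) => glue hL' (fun b x => t a b x * t' b c x)
    (fun x => x ∈ L.U a ∧ x ∈ L''.U c) fun b b' x hb hb' k => by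
      rw [h'.left hL'' hb hb' k.2, ← mul_assoc, h.right hL k.1 hb hb']
  refine ⟨f, fun a c x ha hc => ?_, fun a c x ha hc => ?_, fun a a' c c' x ha ha' hc hc' => ?_⟩
  all_goals obtain ⟨b, hb⟩ := hL'.cover x
  · refine ((h.hol a b x ha hb).mul (h'.hol b c x hb hc)).congr ?_
    filter_upwards [lb_near hL ha, lb_near hL' hb, lb_near hL'' hc] with y k1 k2 k3
      using (hf a c b y k2 ⟨k1, k3⟩).symm
  · rw [hf a c b x hb ⟨ha, hc⟩]
    exact mul_ne_zero (h.ne a b x ha hb) (h'.ne b c x hb hc)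
  · rw [hf a c b x hb ⟨ha, hc⟩, hf a' c' b x hb ⟨ha', hc'⟩, mul_assoc, h'.right hL' hb hc hc',
      h.left hL' ha ha' hb, mul_assoc]

theorem LIso.mul (h : LIso n L L') (h' : LIso n M M') : LIso n (L.mul M) (L'.mul M') := by
  obtain ⟨t, h⟩ := h
  obtain ⟨t', h'⟩ := h'
  refine ⟨fun a b x => t a.1 b.1 x * t' a.2 b.2 x,
    fun a b x ha hb => (h.hol _ _ x ha.1 hb.1).mul (h'.hol _ _ x ha.2 hb.2),
    fun a b x ha hb => mul_ne_zero (h.ne _ _ x ha.1 hb.1) (h'.ne _ _ x ha.2 hb.2),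
    fun a a' b b' x ha ha' hb hb' => ?_⟩
  show _ * _ * (_ * _) = _ * _ * (_ * _)
  rw [mul_mul_mul_comm, h.chg _ _ _ _ x ha.1 ha'.1 hb.1 hb'.1,
    h'.chg _ _ _ _ x ha.2 ha'.2 hb.2 hb'.2, mul_mul_mul_comm]

theorem LIso.pull {m : ℕ} {X' : Type} [TopologicalSpace X'] [ChartedSpace (Cm m) X']
    [IsManifold 𝓘(ℂ, Cm m) ω X'] {j : X' → X} (h : LIso n L L') (hj : HolM m n j) :
    LIso m (pull j L) (pull j L') :=
  h.elim fun t k => ⟨fun a b x => t a b (j x), fun a b _ ha hb => hj.hol (k.hol a b _ ha hb),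
    fun a b x => k.ne a b (j x), fun a a' b b' x => k.chg a a' b b' (j x)⟩

/-- a section without zeros is a trivialisation -/
theorem liso_triv {s : L.ι → X → ℂ} (h : IsSec n L s) (h0 : ∀ x, NZ L s x) : LIso n L (triv X) :=
  liso_of_map isLB_triv (fun _ => ()) s (fun _ => subset_univ _)
    (fun a x ha => ⟨sec_hol h ha, h0 x a ha⟩) fun a a' x ha ha' =>
      (mul_one _).trans (h.change a a' x ha ha')

/-- integral powers -/
def zp (L : Bd X) (k : ℤ) : Bd X := ⟨L.ι, L.U, fun a b x => L.g a b x ^ k⟩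

theorem lb_zp (h : IsLB n L) (k : ℤ) : IsLB n (zp L k) where
  isOpen := h.isOpen
  cover := h.cover
  holo _ _ e x he ha hb := ((lb_hol h ha hb).zpow (h.ne_zero _ _ x ha hb) k e he).contDiffAt
  ne_zero a b x ha hb := zpow_ne_zero k (h.ne_zero _ _ x ha hb)
  cocycle a b c x ha hb hc := by
    show _ ^ k * _ ^ k = _ ^ k
    rw [← h.cocycle _ _ _ x ha hb hc, mul_zpow]

theorem liso_zp (h : LIso n L L') (k : ℤ) : LIso n (zp L k) (zp L' k) :=
  h.elim fun t h => ⟨fun a b x => t a b x ^ k,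
    fun a b x ha hb => (h.hol a b x ha hb).zpow (h.ne a b x ha hb) k,
    fun a b x ha hb => zpow_ne_zero k (h.ne a b x ha hb), fun a a' b b' x ha ha' hb hb' => by
      show _ ^ k * _ ^ k = _ ^ k * _ ^ k
      rw [← mul_zpow, ← mul_zpow, h.chg a a' b b' x ha ha' hb hb']⟩

variable (n X) in
/-- isomorphism is an equivalence relation -/
def picS : Setoid {L : Bd X // IsLB n L} :=
  ⟨fun L L' => LIso n L.1 L'.1, fun L => .refl L.2, fun h => h.symm,
    fun {L L' L''} h h' => h.trans L.2 L'.2 L''.2 h'⟩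

variable (n X) in
/-- the Picard group -/
def Pic : Type 1 := Quotient (picS n X)

namespace Pic

/-- the class -/
def mk (L : Bd X) (h : IsLB n L) : Pic n X := Quotient.mk (picS n X) ⟨L, h⟩

theorem mk_eq {h : IsLB n L} {h' : IsLB n L'} : mk L h = mk L' h' ↔ LIso n L L' :=
  Quotient.eq (r := picS n X)

theorem ind {P : Pic n X → Prop} (h : ∀ L hL, P (mk L hL)) (a : Pic n X) : P a :=
  Quotient.inductionOn a fun L => h L.1 L.2

instance : Zero (Pic n X) := ⟨mk _ isLB_triv⟩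

instance : Add (Pic n X) :=
  ⟨Quotient.map₂ (fun L M => ⟨L.1.mul M.1, lb_mul L.2 M.2⟩) fun _ _ h _ _ h' => LIso.mul h h'⟩

instance : _root_.Neg (Pic n X) :=
  ⟨Quotient.map (fun L => ⟨zp L.1 (-1), lb_zp L.2 _⟩) fun _ _ h => liso_zp h _⟩

theorem mk_add (h : IsLB n L) (h' : IsLB n M) : mk L h + mk M h' = mk _ (lb_mul h h') := rfl

theorem mk_neg (h : IsLB n L) : -mk L h = mk _ (lb_zp h (-1)) := rfl

theorem add_comm' (a b : Pic n X) : a + b = b + a := by
  induction a using ind with | _ L h => ?_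
  induction b using ind with | _ M h' => ?_
  exact mk_eq.2 (liso_of_map' (lb_mul h' h) Prod.swap (fun _ _ k => k.symm)
    fun _ _ _ _ _ => mul_comm _ _)

instance : AddCommGroup (Pic n X) :=
  { AddGroup.ofLeftAxioms (G := Pic n X)
      (fun a b c => by
        induction a using ind with | _ L h => ?_
        induction b using ind with | _ M h' => ?_
        induction c using ind with | _ N h'' => ?_
        exact mk_eq.2 (liso_of_map' (L := (L.mul M).mul N) (lb_mul h (lb_mul h' h''))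
          (fun a => (a.1.1, a.1.2, a.2))
          (fun _ _ k => ⟨k.1.1, k.1.2, k.2⟩) fun _ _ _ _ _ => (mul_assoc _ _ _).symm))
      (fun a => by
        induction a using ind with | _ L h => ?_
        exact mk_eq.2 (liso_of_map' (L := (triv X).mul L) h Prod.snd (fun _ _ k => k.2)
          fun _ _ _ _ _ => (one_mul _).symm))
      (fun a => by
        induction a using ind with | _ L h => ?_
        refine mk_eq.2 (liso_of_map (L := (zp L (-1)).mul L) isLB_triv (fun _ => ())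
          (fun a x => L.g a.2 a.1 x) (fun _ => subset_univ _)
          (fun a x k => ⟨lb_hol h k.2 k.1, h.ne_zero _ _ x k.2 k.1⟩) fun a b x ha hb => ?_)
        show _ * 1 = _ ^ (-1 : ℤ) * _ * _
        rw [mul_assoc, h.cocycle _ _ _ x ha.2 hb.2 hb.1, ← h.cocycle _ _ _ x ha.2 ha.1 hb.1,
          zpow_neg_one, mul_one, mul_left_comm, inv_mul_cancel₀ (h.ne_zero _ _ x ha.1 hb.1),
          mul_one]) with
    add_comm := add_comm' }

end Pic

variable (n) in
open Classical in
/-- the class of a line bundle in the Picard group -/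
def cls (L : Bd X) : Pic n X := if h : IsLB n L then Pic.mk L h else 0

theorem cls_mk (h : IsLB n L) : cls n L = Pic.mk L h := dif_pos h

theorem cls_eq (h : IsLB n L) (h' : IsLB n L') : cls n L = cls n L' ↔ LIso n L L' := by
  rw [cls_mk h, cls_mk h', Pic.mk_eq]

theorem cls_triv : cls n (triv X) = 0 := cls_mk isLB_triv

theorem cls_mul (h : IsLB n L) (h' : IsLB n M) : cls n (L.mul M) = cls n L + cls n M := by
  rw [cls_mk h, cls_mk h', cls_mk (lb_mul h h'), Pic.mk_add]

theorem cls_zp_add (h : IsLB n L) (k k' : ℤ) :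
    cls n (zp L (k + k')) = cls n (zp L k) + cls n (zp L k') := by
  rw [← cls_mul (lb_zp h k) (lb_zp h k'), cls_eq (lb_zp h _) (lb_mul (lb_zp h k) (lb_zp h k'))]
  exact liso_of_map' (lb_mul (lb_zp h k) (lb_zp h k')) (fun a => (a, a)) (fun _ _ k => ⟨k, k⟩)
    fun a a' x ha ha' => (zpow_add₀ (h.ne_zero _ _ x ha ha') k k').symm

theorem cls_zp (h : IsLB n L) (k : ℤ) : cls n (zp L k) = k • cls n L := by
  let φ : ℤ →+ Pic n X := AddMonoidHom.mk' (fun k => cls n (zp L k)) (cls_zp_add h)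
  have h1 : φ 1 = cls n L := (cls_eq (lb_zp h 1) h).2
    (liso_of_map' h id (fun _ => Subset.rfl) fun _ _ _ _ _ => (zpow_one _).symm)
  rw [← h1, ← map_zsmul, smul_eq_mul, mul_one]
  rfl

theorem cls_pow (h : IsLB n L) (k : ℕ) : cls n (L.pow k) = k • cls n L := by
  rw [← natCast_zsmul, ← cls_zp h, cls_eq (lb_pow h k) (lb_zp h k)]
  exact liso_of_map' (lb_zp h k) id (fun _ => Subset.rfl) fun _ _ _ _ _ => zpow_natCast _ _

theorem cls_lin {α : Type} [Fintype α] {B : α → Bd X} (h : ∀ a, IsLB n (B a)) (k : α → ℤ) :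
    cls n (lin B k) = ∑ a, k a • cls n (B a) := by
  classical
  have key0 : ∀ (g : α → ℂ) a (T : Finset α), a ∉ T →
      g a ^ k a * ∏ b, g b ^ (if b ∈ T then k b else 0) =
        ∏ b, g b ^ (if b ∈ insert a T then k b else 0) := fun g a T ha => by
    rw [← Finset.mul_prod_erase _ _ (Finset.mem_univ a),
      ← Finset.mul_prod_erase _ _ (Finset.mem_univ a), if_neg ha,
      if_pos (Finset.mem_insert_self a T), zpow_zero, one_mul]
    exact congrArg _ (Finset.prod_congr rfl fun b hb => by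
      simp only [Finset.mem_insert, (Finset.mem_erase.1 hb).1, false_or])
  have key : ∀ T : Finset α, cls n (lin B fun a => if a ∈ T then k a else 0) =
      ∑ a ∈ T, k a • cls n (B a) := by
    intro T
    induction T using Finset.induction_on with
    | empty =>
      rw [Finset.sum_empty, ← cls_triv, cls_eq (lb_lin h _) isLB_triv]
      exact liso_of_map' isLB_triv (fun _ => ()) (fun _ => subset_univ _) fun _ _ _ _ _ => by
        simp [lin, triv]
    | insert a T ha ih =>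
      rw [Finset.sum_insert ha, ← ih, ← cls_zp (h a), ← cls_mul (lb_zp (h a) _) (lb_lin h _),
        cls_eq (lb_lin h _) (lb_mul (lb_zp (h a) _) (lb_lin h _))]
      refine liso_of_map' (lb_mul (lb_zp (h a) _) (lb_lin h _)) (fun j => (j a, j))
        (fun _ _ k => ⟨k a, k⟩) fun j j' x _ _ => ?_
      exact key0 (fun b => (B b).g (j b) (j' b) x) a T ha
  simpa using key Finset.univ

theorem cls_sec {s : L.ι → X → ℂ} (hL : IsLB n L) (h : IsSec n L s) (h0 : ∀ x, NZ L s x) :
    cls n L = 0 := by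
  rw [← cls_triv, cls_eq hL isLB_triv]
  exact liso_triv h h0

variable {m : ℕ} {X' : Type} [TopologicalSpace X'] [ChartedSpace (Cm m) X']
  [IsManifold 𝓘(ℂ, Cm m) ω X'] {j : X' → X}

/-- the pull back of classes -/
def HolM.pic (hj : HolM m n j) : Pic n X →+ Pic m X' :=
  AddMonoidHom.mk' (Quotient.map (fun L => ⟨pull j L.1, hj.lb L.2⟩) fun _ _ h => LIso.pull h hj)
    fun a b => by
      induction a using Pic.ind with | _ L h => ?_
      induction b using Pic.ind with | _ M h' => ?_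
      rfl

theorem cls_pull (hj : HolM m n j) (h : IsLB n L) : cls m (pull j L) = hj.pic (cls n L) := by
  rw [cls_mk h, cls_mk (hj.lb h)]
  rfl

/-! ### transport of sections -/

variable {p : ℕ} {Y : Type} [TopologicalSpace Y] [ChartedSpace (Cm p) Y]
  [IsManifold 𝓘(ℂ, Cm p) ω Y] {κ : Type} [Fintype κ] {G : κ → Set Y} {i : X → Y} {c : κ → ℝ}
  {O : Set X}

/-- the image of a family of local functions under an isomorphism -/
def LRel.map (hL' : IsLB n L') (t : L.ι → L'.ι → X → ℂ) (s : L'.ι → X → ℂ) (a : L.ι) (x : X) : ℂ :=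
  t a (hL'.cover x).choose x * s (hL'.cover x).choose x

theorem LRel.map_eq (hL : IsLB n L) (hL' : IsLB n L') {t : L.ι → L'.ι → X → ℂ}
    (h : LRel n L L' t) {s : L'.ι → X → ℂ} {x : X}
    (hs : ∀ b b', x ∈ L'.U b → x ∈ L'.U b' → s b x = L'.g b b' x * s b' x) {a : L.ι} {b : L'.ι}
    (ha : x ∈ L.U a) (hb : x ∈ L'.U b) : LRel.map hL' t s a x = t a b x * s b x := by
  rw [LRel.map, hs _ b (hL'.cover x).choose_spec hb, ← mul_assoc,
    h.right hL ha (hL'.cover x).choose_spec hb]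

theorem LRel.secP (hL : IsLB n L) (hL' : IsLB n L') {t : L.ι → L'.ι → X → ℂ} (h : LRel n L L' t)
    (hO : IsOpen O) (hG : IsOpen (i ⁻¹' off G)) {s : L'.ι → X → ℂ} (hs : SecP n p i O L' G c s) :
    SecP n p i O L G c (LRel.map hL' t s) := by
  have key : ∀ a b, ∀ x ∈ O, x ∈ L.U a → x ∈ L'.U b → ∀ᶠ y in 𝓝 x, i y ∈ off G →
      LRel.map hL' t s a y = t a b y * s b y := fun a b x hx ha hb => by
    filter_upwards [hO.mem_nhds hx, lb_near hL ha, lb_near hL' hb] with y k1 k2 k3 k4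
      using h.map_eq hL hL' (fun b b' k k' => hs.chg b b' y k1 k k' k4) k2 k3
  refine ⟨fun a x hx ha h1 => ?_, fun a a' x hx ha ha' h1 => ?_, fun a x hx ha => ?_⟩
  all_goals obtain ⟨b, hb⟩ := hL'.cover x
  · refine ((h.hol a b x ha hb).mul (hs.hol b x hx hb h1)).congr ?_
    filter_upwards [key a b x hx ha hb, hG.mem_nhds h1] with y k1 k2 using (k1 k2).symm
  · rw [(key a b x hx ha hb).self_of_nhds h1, (key a' b x hx ha' hb).self_of_nhds h1,
      h.left hL' ha ha' hb, mul_assoc]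
  · exact ((hs.bdP hx hb).cmul (h.hol a b x ha hb).cont).congr (key a b x hx ha hb)

theorem LRel.sec (hL : IsLB n L) (hL' : IsLB n L') {t : L.ι → L'.ι → X → ℂ} (h : LRel n L L' t)
    {s : L'.ι → X → ℂ} (hs : IsSec n L' s) : IsSec n L (LRel.map hL' t s) := by
  have k := h.secP (p := n) (i := id) (G := fun l : Empty => l.elim) (c := fun _ => 0) hL hL'
    isOpen_univ (by simp [off]) (secP_of_sec continuous_id hs fun _ => le_rfl)
  exact isSec_of (fun a x ha => k.hol a x trivial ha fun l => l.elim)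
    fun a b x ha hb => k.chg a b x trivial ha hb fun l => l.elim

theorem LRel.nz (hL' : IsLB n L') {t : L.ι → L'.ι → X → ℂ} (h : LRel n L L' t)
    {s : L'.ι → X → ℂ} {x : X} : NZ L' s x → NZ L (LRel.map hL' t s) x := fun k a ha =>
  mul_ne_zero (h.ne a _ x ha (hL'.cover x).choose_spec) (k _ (hL'.cover x).choose_spec)

theorem Bpf.iso (hL : IsLB n L) (hL' : IsLB n L') (h : LIso n L L') (k : Bpf n L') : Bpf n L :=
  fun x => let ⟨_, h1⟩ := h; let ⟨_, h2, h3⟩ := k x; ⟨_, h1.sec hL hL' h2, h1.nz hL' h3⟩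

end Vale.Agent.P281Z
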