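import Vale.Agent.P281Z.Sc.Sy
import Vale.Agent.P281Z.Md.Ext

/-!
# P281Z, sections with poles: twisting by the divisors, the order along the components
-/

open scoped Manifold ContDiff Topology
open Set Filter Function
open Vale.Agent.P272.K Vale.Agent.P285.H281.FD
open Vale.Agent.P277Z (Hol Nz Dvd at_chart hol_const)
open Vale.Agent.P277Z.Slc (lin triv Ind LEq Snc IsDiv)
open Vale.Agent.P277.HD (pull)

set_option linter.unusedSectionVars false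

noncomputable section

namespace Vale.Agent.P281Z

section twist

variable {n p : ℕ} {X Y : Type} [TopologicalSpace X] [ChartedSpace (Cm n) X]
  [TopologicalSpace Y] [ChartedSpace (Cm p) Y] [IsManifold 𝓘(ℂ, Cm n) ω X]
  [IsManifold 𝓘(ℂ, Cm p) ω Y] {κ : Type} [Fintype κ] {G : κ → Set Y} {i : X → Y} {c : κ → ℝ}
  {O : Set X} {L : Bd X} {D : κ → Bd Y} {σ : ∀ l, (D l).ι → Y → ℂ} {k : κ → ℤ}

theorem Hyp.of_div (hD : ∀ l, IsDiv p (G l) (D l) (σ l)) : Hyp p G := fun y => by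
  choose ζ hζ using fun l => (hD l).ex y
  exact ⟨ζ, hζ⟩

theorem Hyp.exists_div [T2Space Y] [SecondCountableTopology Y] (h : Hyp p G) :
    ∃ (D : κ → Bd Y) (σ : ∀ l, (D l).ι → Y → ℂ), ∀ l, IsDiv p (G l) (D l) (σ l) := by
  choose D σ hD using fun l => P277Z.Slc.stDiv p Y (G l) fun y => (h y).elim fun ζ k => ⟨ζ l, k l⟩
  exact ⟨D, σ, hD⟩

/-- division by the canonical section of `∑ k l • G l` -/
theorem SecP.untwist (hi : HolM n p i) (hD : ∀ l, IsDiv p (G l) (D l) (σ l)) (hL : IsLB n L)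
    (hO : IsOpen O) {t : (L.mul (pull i (lin D k))).ι → X → ℂ}
    (ht : SecP n p i O (L.mul (pull i (lin D k))) G c t) :
    ∃ s, SecP n p i O L G (fun l => c l + k l) s ∧ ∀ a j, ∀ x ∈ O, x ∈ L.U a →
      (∀ l, i x ∈ (D l).U (j l)) → i x ∈ off G →
        t (a, j) x = s a x * ∏ l, σ l (j l) (i x) ^ k l := by
  have hN := hi.lb (lb_lin (fun l => (hD l).lb) k)
  have hO' := (Hyp.of_div hD).isOpen.preimage hi.cont
  obtain ⟨h1, h2⟩ := secP_div (O := O) hi hD k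
  choose s hs using fun a => glue hN (fun j x => t (a, j) x / ∏ l, σ l (j l) (i x) ^ k l)
    (fun x => x ∈ O ∧ x ∈ L.U a ∧ i x ∈ off G) fun j j' x hj hj' hx => by
      rw [ht.chg (a, j) (a, j') x hx.1 ⟨hx.2.1, hj⟩ ⟨hx.2.1, hj'⟩ hx.2.2,
        h1.chg j j' x hx.1 hj hj' hx.2.2]
      show L.g a a x * _ * _ / _ = _
      rw [lb_self hL hx.2.1, one_mul, mul_div_mul_left _ _ (hN.ne_zero j j' x hj hj')]
  have key : ∀ a j, ∀ x ∈ O, x ∈ L.U a → x ∈ (pull i (lin D k)).U j → ∀ᶠ y in 𝓝 x, i y ∈ off G →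
      s a y = t (a, j) y * ∏ l, σ l (j l) (i y) ^ (-k l) := fun a j x hx ha hj => by
    filter_upwards [hO.mem_nhds hx, lb_near hL ha, lb_near hN hj] with y k1 k2 k3 k4
    rw [hs a j y k3 ⟨k1, k2, k4⟩, div_eq_mul_inv, ← Finset.prod_inv_distrib]
    simp only [zpow_neg]
  obtain ⟨h3, -⟩ := secP_div (O := O) hi hD (fun l => -k l)
  refine ⟨s, ⟨fun a x hx ha hG => ?_, fun a b x hx ha hb hG => ?_, fun a x hx ha => ?_⟩,
    fun a j x hx ha hj hG => by rw [hs a j x hj ⟨hx, ha, hG⟩, div_mul_cancel₀ _ (h2 x hG j hj)]⟩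
  all_goals obtain ⟨j, hj⟩ := hN.cover x
  · refine ((ht.hol (a, j) x hx ⟨ha, hj⟩ hG).mul (h3.hol j x hx hj hG)).congr ?_
    filter_upwards [key a j x hx ha hj, hO'.mem_nhds hG] with y k1 k2 using (k1 k2).symm
  · rw [hs a j x hj ⟨hx, ha, hG⟩, hs b j x hj ⟨hx, hb, hG⟩,
      ht.chg (a, j) (b, j) x hx ⟨ha, hj⟩ ⟨hb, hj⟩ hG]
    show L.g a b x * (pull i (lin D k)).g j j x * _ / _ = _
    rw [lb_self hN hj, mul_one, mul_div_assoc]
  · have h4 := ((ht.bdP (a := (a, j)) hx ⟨ha, hj⟩).mul_mono hi.cont.continuousAt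
      (fun l => (hD l).leq _ _ (hj l)) fun l => -k l).congr (key a j x hx ha hj)
    exact h4.mono hi.cont.continuousAt fun l _ => by simp

/-- multiplication by the canonical section of `∑ k l • G l` gives a holomorphic section -/
theorem SecP.twist (hi : HolM n p i) (hT : Trv n p i G) (hS : Snc n fun l => i ⁻¹' G l)
    (hD : ∀ l, IsDiv p (G l) (D l) (σ l)) (hL : IsLB n L) (hO : IsOpen O) {s : L.ι → X → ℂ}
    (hs : SecP n p i O L G c s) (hk : ∀ l, c l < k l + 1) :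
    ∃ t : (L.mul (pull i (lin D k))).ι → X → ℂ,
      (∀ a, ∀ x ∈ O, x ∈ (L.mul (pull i (lin D k))).U a → Hol n (t a) x) ∧
      (∀ a b, ∀ x ∈ O, x ∈ (L.mul (pull i (lin D k))).U a → x ∈ (L.mul (pull i (lin D k))).U b →
        t a x = (L.mul (pull i (lin D k))).g a b x * t b x) ∧
      ∀ a j, ∀ x ∈ O, x ∈ L.U a → (∀ l, i x ∈ (D l).U (j l)) → i x ∈ off G →
        t (a, j) x = s a x * ∏ l, σ l (j l) (i x) ^ k l := by
  obtain ⟨t, h1, h2, h3⟩ := ((secP_iff_pull hi.cont hT).1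
    (hs.mul hi.cont (secP_div (O := O) hi hD k).1)).ext hS
    (lb_mul hL (hi.lb (lb_lin (fun l => (hD l).lb) k))) hO fun l => by linarith [hk l]
  exact ⟨t, h1, h2, fun a j x hx ha hj hG => h3 (a, j) x hx ⟨ha, hj⟩ hG⟩

theorem trv_id {G : κ → Set X} (h : Hyp n G) : Trv n n id G := fun x => (h x).imp fun _ k => ⟨k, k⟩

theorem secP_of_hol (hi : Continuous i) {s : L.ι → X → ℂ}
    (h1 : ∀ a, ∀ x ∈ O, x ∈ L.U a → Hol n (s a) x)
    (h2 : ∀ a b, ∀ x ∈ O, x ∈ L.U a → x ∈ L.U b → s a x = L.g a b x * s b x) (hc : ∀ l, 0 ≤ c l) :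
    SecP n p i O L G c s :=
  ⟨fun a x hx ha _ => h1 a x hx ha, fun a b x hx ha hb _ => h2 a b x hx ha hb,
    fun a x hx ha => bdP_of_cont hi.continuousAt (fun l _ => hc l) (h1 a x hx ha).cont⟩

/-- systems of sections with poles are systems of holomorphic sections -/
theorem sy_iff_sec (hi : HolM n p i) (hT : Trv n p i G) (hS : Snc n fun l => i ⁻¹' G l)
    (hD : ∀ l, IsDiv p (G l) (D l) (σ l)) (hL : IsLB n L) {j : ℕ} :
    Sy n p i L G c j ↔ ∃ t : Fin (j + 1) → (L.mul (pull i (lin D fun l => ⌊c l⌋))).ι → X → ℂ,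
      (∀ b, IsSec n _ (t b)) ∧ Rk n univ _ t := by
  have hG := Hyp.of_div hD
  have hM := fun k => hi.lb (lb_lin (fun l => (hD l).lb) k)
  have hN := lb_mul hL (hM fun l => ⌊c l⌋)
  constructor
  · intro h
    obtain ⟨s, h1, x, h2, a, h3, h4, h5⟩ :=
      (sy_iff_pull hi.cont hT).1 (h.div hi hL hD fun l => ⌊c l⌋)
    choose t h6 h7 using fun b => (h1 b).isSec hS hN fun l => by
      linarith [Int.lt_floor_add_one (c l)]
    refine ⟨t, h6, x, trivial, rkAt_of h4 h5 h3 (w := fun _ => 1) ?_⟩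
    filter_upwards [(hG.isOpen.preimage hi.cont).mem_nhds h2, lb_near hN h3] with y k1 k2
      using ⟨one_ne_zero, fun b => by rw [h7 b a y k2 k1, one_mul]⟩
  · rintro ⟨t, h1, x, -, a, h3, h4, h5⟩
    have h6 : ∀ᶠ y in 𝓝 x, RkAt n _ t y := by
      filter_upwards [lb_near hN h3, (sec_hol (h1 0) h3).ne_near h4, h5.near] with y k1 k2 k3
        using ⟨a, k1, k2, k3⟩
    obtain ⟨y, k1, k2⟩ := (((Hyp.of_snc hS).freq x).and_eventually h6).exists
    refine ((sy_of t (fun b => secP_of_sec hi.cont (h1 b) fun _ => le_rfl) k1 k2).div hi hN hD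
      fun l => -⌊c l⌋).iso hG hi.cont hL (lb_mul hN (hM _))
      ((cls_eq hL (lb_mul hN (hM _))).1 ?_) |>.mono hi.cont fun l => by simpa using Int.floor_le _
    rw [cls_mul hN (hM _), cls_mul hL (hM _), cls_pull hi (lb_lin (fun l => (hD l).lb) _),
      cls_pull hi (lb_lin (fun l => (hD l).lb) _), cls_lin fun l => (hD l).lb,
      cls_lin fun l => (hD l).lb, add_assoc, ← map_add, ← Finset.sum_add_distrib]
    simp

end twist

variable {n : ℕ} {X : Type} [TopologicalSpace X] [ChartedSpace (Cm n) X]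
  [IsManifold 𝓘(ℂ, Cm n) ω X] {κ : Type} [Fintype κ] {G : κ → Set X} {c : κ → ℝ} {k k' : κ → ℤ}
  {u u' : X → ℂ} {x : X} {ζ : κ → X → ℂ}

variable (n) in
/-- `u` has the order `k l` along the `G l` through `x` -/
def OrdAt (G : κ → Set X) (k : κ → ℤ) (u : X → ℂ) (x : X) : Prop :=
  ∀ ζ : κ → X → ℂ, (∀ l, LEq n (G l) x (ζ l)) → ∃ b, Hol n b x ∧ Nz b x ∧
    (∀ᶠ y in 𝓝 x, y ∈ off G → u y = b y * ∏ l, ζ l y ^ k l) ∧
    ∀ l, x ∈ G l → ∃ᶠ y in 𝓝 x, y ∈ G l ∧ b y ≠ 0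

theorem ord_unit {b w : X → ℂ} (hb : Hol n b x) (h0 : Nz b x)
    (h : ∀ l, x ∈ G l → ∃ᶠ y in 𝓝 x, y ∈ G l ∧ b y ≠ 0) (hw : Hol n w x) (hw0 : w x ≠ 0) :
    Hol n (fun y => b y * w y) x ∧ Nz (fun y => b y * w y) x ∧
      ∀ l, x ∈ G l → ∃ᶠ y in 𝓝 x, y ∈ G l ∧ b y * w y ≠ 0 :=
  ⟨hb.mul hw, Nz.mul hb hw h0 (P277Z.nz_of_ne hw0), fun l hl =>
    ((h l hl).and_eventually (hw.ne_near hw0)).mono fun _ k => ⟨k.1.1, mul_ne_zero k.1.2 k.2⟩⟩

theorem ordAt_of_one (hζ : ∀ l, LEq n (G l) x (ζ l)) {b : X → ℂ} (hb : Hol n b x) (h0 : Nz b x)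
    (h1 : ∀ᶠ y in 𝓝 x, y ∈ off G → u y = b y * ∏ l, ζ l y ^ k l)
    (h2 : ∀ l, x ∈ G l → ∃ᶠ y in 𝓝 x, y ∈ G l ∧ b y ≠ 0) : OrdAt n G k u x := fun ζ' hζ' => by
  choose w k1 k2 k3 using fun l => leq_unit (hζ' l) (hζ l)
  obtain ⟨k4, k5, k6⟩ := ord_unit hb h0 h2 (w := fun y => ∏ l, w l y ^ k l)
    (Hol.prod _ fun l _ => (k1 l).zpow (k2 l) _)
    (Finset.prod_ne_zero_iff.2 fun l _ => zpow_ne_zero _ (k2 l))
  refine ⟨_, k4, k5, ?_, k6⟩
  filter_upwards [h1, eventually_all.2 k3] with y m1 m2 m3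
  rw [m1 m3, mul_assoc, ← Finset.prod_mul_distrib]
  simp only [m2, mul_zpow]

theorem OrdAt.unit (h : OrdAt n G k u x) {w : X → ℂ} (hw : Hol n w x) (hw0 : w x ≠ 0)
    (e : ∀ᶠ y in 𝓝 x, y ∈ off G → u' y = w y * u y) : OrdAt n G k u' x := fun ζ hζ => by
  obtain ⟨b, h1, h2, h3, h4⟩ := h ζ hζ
  obtain ⟨k4, k5, k6⟩ := ord_unit h1 h2 h4 hw hw0
  refine ⟨_, k4, k5, ?_, k6⟩
  filter_upwards [h3, e] with y m1 m2 m3
  rw [m2 m3, m1 m3]
  ring

theorem OrdAt.chg (h : OrdAt n G k u x) (e : ∀ l, x ∈ G l → k l = k' l) : OrdAt n G k' u x :=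
  fun ζ hζ => by
  obtain ⟨b, h1, h2, h3, h4⟩ := h ζ hζ
  have h5 : ∀ l, Hol n (fun y => ζ l y ^ (k l - k' l)) x ∧ ζ l x ^ (k l - k' l) ≠ 0 := fun l => by
    by_cases hl : x ∈ G l
    · simpa [e l hl] using hol_const 1 x
    · exact ⟨(hζ l).hol.zpow (mt (hζ l).mem.1 hl) _, zpow_ne_zero _ (mt (hζ l).mem.1 hl)⟩
  obtain ⟨k4, k5, k6⟩ := ord_unit h1 h2 h4 (w := fun y => ∏ l, ζ l y ^ (k l - k' l))
    (Hol.prod _ fun l _ => (h5 l).1) (Finset.prod_ne_zero_iff.2 fun l _ => (h5 l).2)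
  refine ⟨_, k4, k5, ?_, k6⟩
  filter_upwards [h3, off_iff hζ] with y m1 m2 m3
  rw [m1 m3, mul_assoc, ← Finset.prod_mul_distrib]
  exact congrArg _ (Finset.prod_congr rfl fun l _ => by
    rw [← zpow_add₀ (m2.1 m3 l), sub_add_cancel])

theorem not_dvd_of {D : Set X} {ξ b : X → ℂ} (h : LEq n D x ξ) (k : ∃ᶠ y in 𝓝 x, y ∈ D ∧ b y ≠ 0) :
    ¬ Dvd n ξ b x := fun ⟨_, _, h2⟩ =>
  let ⟨_, m1, m2, m3⟩ := (k.and_eventually (h.1.and h2)).exists
  m1.2 (by rw [m3, m2.2 m1.1, mul_zero])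

theorem OrdAt.near (hG : Hyp n G) (h : OrdAt n G k u x) : ∀ᶠ y in 𝓝 x, OrdAt n G k u y := by
  obtain ⟨ζ, hζ⟩ := hG x
  obtain ⟨b, h1, h2, h3, h4⟩ := h ζ hζ
  have h5 : ∀ l, ∀ᶠ y in 𝓝 x, y ∈ G l → ∃ᶠ z in 𝓝 y, z ∈ G l ∧ b z ≠ 0 := fun l => by
    by_cases hl : x ∈ G l
    · exact Md.ndv (hζ l) hl h1 (not_dvd_of (hζ l) (h4 l hl))
    · exact ((hζ l).not_mem_near hl).mono fun _ k k' => (k k').elim
  filter_upwards [eventually_all.2 fun l => (hζ l).near, h1.near, Nz.near h2 h1,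
    h3.eventually_nhds, eventually_all.2 h5] with y k1 k2 k3 k4 k5
    using ordAt_of_one k1 k2 k3 k4 k5

theorem OrdAt.bdP (hG : Hyp n G) (h : OrdAt n G k u x) (hc : ∀ l, x ∈ G l → 0 ≤ c l + k l) :
    BdP n id G c u x := by
  obtain ⟨ζ, hζ⟩ := hG x
  obtain ⟨b, h1, -, h3, -⟩ := h ζ hζ
  exact (((bdP_mono continuousAt_id hζ k).cmul h1.cont).congr h3).mono continuousAt_id
    fun l hl => by linarith [hc l hl]

/-- the bound in terms of the orders -/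
theorem OrdAt.bdP_iff (hG : Snc n G) (h : OrdAt n G k u x) :
    BdP n id G c u x ↔ ∀ l, x ∈ G l → 0 ≤ c l + k l := by
  classical
  have hH := Hyp.of_snc hG
  refine ⟨fun hb l hl => ?_, h.bdP hH⟩
  obtain ⟨ζ, hζ, hI⟩ := hG x
  obtain ⟨b, h1, -, h3, h4⟩ := h ζ hζ
  obtain ⟨z, ⟨m1, m2, m3⟩, m4, m5, m6, m7⟩ := (((Md.gen_pt hζ hI hl h1
    (not_dvd_of (hζ l) (h4 l hl))).self_of_nhds hl).and_eventually
    ((eventually_all.2 fun l => (hζ l).near).and (h1.near.and (h3.eventually_nhds.and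
      (hb.near hH (.of_forall fun _ => continuousAt_id)))))).exists
  have m8 : BdP n id G (fun l' => if l' = l then c l + k l else 0) (fun _ => 1) z := by
    refine (((m7.mul_mono continuousAt_id m4 fun l => -k l).cmul (m5.inv m2).cont).congr ?_).mono
      continuousAt_id fun l' hl' => ?_
    · filter_upwards [m6, m5.ne_near m2, off_iff m4] with y r1 r2 r3 r4
      rw [r1 r4, mul_assoc, ← Finset.prod_mul_distrib, inv_mul_cancel_left₀ r2]
      exact (Finset.prod_eq_one fun l _ => by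
        rw [id, ← zpow_add₀ (r3.1 r4 l), add_neg_cancel, zpow_zero]).symm
    · obtain rfl : l' = l := by_contra fun e => m3 l' e ((m4 l').mem.2 hl')
      simp
  obtain ⟨C, hC⟩ := m8 ζ m4
  refine Md.exp_nonneg (φ := fun _ => 1) (ζ := fun y => ‖ζ l y‖) (hH.freq z) continuousAt_const
    one_pos (m4 l).hol.cont.norm (norm_eq_zero.2 ((m4 l).mem.2 m1))
    ((off_iff m4).mono fun y r1 r2 => norm_pos_iff.2 (r1.1 r2 l)) ⟨C, hC.mono fun y r1 r2 => ?_⟩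
  have := r1 r2
  rwa [wt_single, norm_one] at this

theorem OrdAt.unique (hG : Snc n G) (h : OrdAt n G k u x) (h' : OrdAt n G k' u x) {l : κ}
    (hl : x ∈ G l) : k l = k' l := by
  have h1 := (h.bdP_iff hG).1 (h'.bdP (c := fun l => -k' l) (.of_snc hG) fun _ _ => by simp) l hl
  have h2 := (h'.bdP_iff hG).1 (h.bdP (c := fun l => -k l) (.of_snc hG) fun _ _ => by simp) l hl
  exact_mod_cast (by linarith : (k l : ℝ) = k' l)

/-- **ORD**, at a point -/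
theorem BdP.ord (hG : Snc n G) (h : BdP n id G c u x) (hu : ∀ᶠ y in 𝓝 x, y ∈ off G → Hol n u y)
    (h0 : ∃ᶠ y in 𝓝 x, y ∈ off G ∧ u y ≠ 0) : ∃ k, OrdAt n G k u x := by
  classical
  obtain ⟨ζ, hζ⟩ := Hyp.of_snc hG x
  obtain ⟨b₀, h1, h2⟩ := h.ext hG (fun l _ => Int.lt_floor_add_one (c l)) hu hζ
  have h3 : Nz b₀ x := fun k => by
    obtain ⟨y, m1, m2, m3, m4⟩ := (h0.and_eventually (k.and (h2.and (off_iff hζ)))).exists
    rw [m3 m1.1] at m2
    exact mul_ne_zero m1.2 (Finset.prod_ne_zero_iff.2 fun l _ => zpow_ne_zero _ (m4.1 m1.1 l)) m2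
  have key : ∀ T : Finset κ, ∃ (j : κ → ℕ) (b : X → ℂ), Hol n b x ∧
      (∀ᶠ y in 𝓝 x, b₀ y = b y * ∏ l ∈ T, ζ l y ^ j l) ∧
      ∀ l ∈ T, x ∈ G l → ¬ Dvd n (ζ l) b x := fun T => by
    induction T using Finset.induction_on with
    | empty => exact ⟨0, b₀, h1, by simp, by simp⟩
    | insert a T ha ih =>
      obtain ⟨j, b, k1, k2, k3⟩ := ih
      obtain ⟨r, b', m1, m2, m3⟩ : ∃ (r : ℕ) (b' : X → ℂ), Hol n b' x ∧
          (x ∈ G a → ¬ Dvd n (ζ a) b' x) ∧ ∀ᶠ y in 𝓝 x, b y = ζ a y ^ r * b' y := by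
        by_cases hx : x ∈ G a
        · exact (Md.exists_ord (hζ a) hx k1 fun e => h3 ((k2.and e).mono fun y m => by
            rw [m.1, m.2, zero_mul])).imp fun _ m => m.imp fun _ m => ⟨m.1, fun _ => m.2.1, m.2.2⟩
        · exact ⟨0, b, k1, fun m => (hx m).elim, by simp⟩
      refine ⟨update j a r, b', m1, ?_, fun l hl hx => ?_⟩
      · filter_upwards [k2, m3] with y r1 r2
        have r3 : ∏ l ∈ T, ζ l y ^ update j a r l = ∏ l ∈ T, ζ l y ^ j l :=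
          Finset.prod_congr rfl fun l hl => by rw [update_of_ne (ne_of_mem_of_not_mem hl ha)]
        rw [Finset.prod_insert ha, update_self, r1, r2, r3]
        ring
      · rcases Finset.mem_insert.1 hl with rfl | hl
        · exact m2 hx
        · exact fun d => k3 l hl hx ((d.mul_left ((hζ a).hol.pow r)).congr (m3.mono fun _ => .symm))
  obtain ⟨j, b, k1, k2, k3⟩ := key Finset.univ
  refine ⟨fun l => j l - ⌊c l⌋, ordAt_of_one hζ k1
    (fun e => h3 ((k2.and e).mono fun y m => by rw [m.1, m.2, zero_mul])) ?_ fun l hl =>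
      (Md.ndv (hζ l) hl k1 (k3 l (Finset.mem_univ l) hl)).self_of_nhds hl⟩
  filter_upwards [h2, k2, off_iff hζ] with y r1 r2 r3 r4
  refine mul_right_cancel₀ (Finset.prod_ne_zero_iff.2 fun l (_ : l ∈ Finset.univ) =>
    zpow_ne_zero ⌊c l⌋ (r3.1 r4 l)) ?_
  rw [← r1 r4, r2, mul_assoc, ← Finset.prod_mul_distrib]
  exact congrArg _ (Finset.prod_congr rfl fun l _ => by
    rw [← zpow_add₀ (r3.1 r4 l), sub_add_cancel, zpow_natCast])

variable {O : Set X} {L : Bd X} {s : L.ι → X → ℂ}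

/-- **ORD**: the order is constant along connected components -/
theorem SecP.ord (hG : Snc n G) (hL : IsLB n L) (hO : IsOpen O) (h : SecP n n id O L G c s)
    (hc : ∀ l, IsPreconnected (G l ∩ O)) (h0 : O ⊆ closure {x | x ∈ off G ∧ NZ L s x}) :
    ∃ k : κ → ℤ, ∀ a, ∀ x ∈ O, x ∈ L.U a → OrdAt n G k (s a) x := by
  classical
  have h1 : ∀ k a b, ∀ x ∈ O, x ∈ L.U a → x ∈ L.U b → OrdAt n G k (s b) x → OrdAt n G k (s a) x :=
    fun k a b x hx ha hb m => m.unit (lb_hol hL ha hb) (hL.ne_zero _ _ x ha hb) (by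
      filter_upwards [hO.mem_nhds hx, lb_near hL ha, lb_near hL hb] with y r1 r2 r3
        using h.chg a b y r1 r2 r3)
  have h2 : ∀ x, ∃ k, x ∈ O → ∀ a, x ∈ L.U a → OrdAt n G k (s a) x := fun x => by
    by_cases hx : x ∈ O
    · obtain ⟨b, hb⟩ := hL.cover x
      exact ((h.bdP hx hb).ord hG (h.ev hL hO hx hb)
        (((mem_closure_iff_frequently.1 (h0 hx)).and_eventually (lb_near hL hb)).mono
          fun y m => ⟨m.1.1, m.1.2 b m.2⟩)).imp fun k m _ a ha => h1 k a b x hx ha hb m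
    · exact ⟨0, fun m => (hx m).elim⟩
  choose o ho using h2
  have h3 : ∀ l, ∀ x ∈ G l ∩ O, ∀ y ∈ G l ∩ O, o x l = o y l := fun l x hx y hy =>
    (hc l).constant (f := fun x => o x l) (fun z hz => by
      obtain ⟨a, ha⟩ := hL.cover z
      refine continuousWithinAt_const.congr_of_eventuallyEq (eventually_nhdsWithin_iff.2 ?_) rfl
      filter_upwards [(ho z hz.2 a ha).near (.of_snc hG), lb_near hL ha] with w r1 r2 r3
        using (ho w r3.2 a r2).unique hG r1 r3.1) hx hy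
  refine ⟨fun l => if m : (G l ∩ O).Nonempty then o m.choose l else 0, fun a x hx ha =>
    (ho x hx a ha).chg fun l hl => ?_⟩
  have m : (G l ∩ O).Nonempty := ⟨x, hl, hx⟩
  rw [dif_pos m]
  exact h3 l x ⟨hl, hx⟩ _ m.choose_spec

theorem SecP.ord' [PreconnectedSpace X] (hG : Snc n G) (hL : IsLB n L)
    (h : SecP n n id univ L G c s) (hc : ∀ l, IsPreconnected (G l))
    (h0 : ∃ x, x ∈ off G ∧ NZ L s x) : ∃ k : κ → ℤ, ∀ a, ∀ x ∈ L.U a, OrdAt n G k (s a) x :=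
  (h.ord hG hL isOpen_univ (fun l => by simpa using hc l)
    fun x _ => h.dense_nz (.of_snc hG) holM_id hL h0 x).imp fun _ m a x => m a x trivial

end Vale.Agent.P281Z
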