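import Vale.Agent.P281Z.Sc.Ord
import Vale.Agent.P281Z.Mf.Adapt
import Vale.Agent.P284.H468.Sub

/-!
# P281Z, sections with poles: integrability and the bound
-/

open scoped Manifold ContDiff Topology ENNReal
open Set Filter Function Metric MeasureTheory
open Vale.Agent.P272.K Vale.Agent.P285.H281.FD
open Vale.Agent.P277Z (Hol Nz at_chart hol_const)
open Vale.Agent.P277Z.Slc (Ind LEq Snc)

set_option linter.unusedSectionVars false

noncomputable section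

namespace Vale.Agent.P281Z

namespace Sc

variable {n : ℕ}

theorem rot_pres (q : Cm n) {a : ℂ} (ha : ‖a‖ = 1) :
    MeasurePreserving fun z : Cm n => q + a • (z - q) := by
  have h1 : MeasurePreserving fun z : ℂ => a * z :=
    (rotation ⟨a, by simpa [Submonoid.unitSphere] using ha⟩ : ℂ ≃ₗᵢ[ℝ] ℂ).measurePreserving
  exact (measurePreserving_add_left volume q).comp
    ((volume_preserving_pi fun _ : Fin n => h1).comp (measurePreserving_sub_right volume q))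

/-- the mean value inequality for `|f|^r` -/
theorem mean {f : Cm n → ℂ} {q : Cm n} {P : Set (Cm n)} (hP : IsOpen P)
    (hs : ∀ z ∈ P, ∀ t : ℂ, ‖t‖ ≤ 1 → q + t • (z - q) ∈ P) (hf : ∀ z ∈ P, AnalyticAt ℂ f z)
    {r : ℝ} (hr : 0 < r) : ‖f q‖ₑ ^ r * volume P ≤ ∫⁻ z in P, ‖f z‖ₑ ^ r := by
  classical
  let F : Cm n → ℝ≥0∞ := P.piecewise (fun z => ‖f z‖ₑ ^ r) 0
  have hF : Measurable F := ContinuousOn.measurable_piecewise (fun z hz =>
    (ENNReal.continuous_rpow_const.continuousAt.comp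
      (hf z hz).continuousAt.enorm).continuousWithinAt) continuousOn_const hP.measurableSet
  have hπ : ENNReal.ofReal (2 * Real.pi) ≠ 0 := (ENNReal.ofReal_pos.2 Real.two_pi_pos).ne'
  have h1 : ∀ z ∈ P, ENNReal.ofReal (2 * Real.pi) * ‖f q‖ₑ ^ r ≤
      ∫⁻ θ in Ioc 0 (2 * Real.pi), F (q + circleMap 0 1 θ • (z - q)) := fun z hz => by
    have h2 := P284.H468.rpow_le_average (G := fun t => f (q + t • (z - q))) one_pos hr
      fun t ht => (hf _ (hs z hz t (by simpa using ht))).fun_comp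
        (f := fun t : ℂ => q + t • (z - q)) (by fun_prop)
    rw [Real.circleAverage_def, smul_eq_mul, le_inv_mul_iff₀ Real.two_pi_pos,
      intervalIntegral.integral_of_le Real.two_pi_pos.le, zero_smul, add_zero] at h2
    rw [← ofReal_norm, ENNReal.ofReal_rpow_of_nonneg (norm_nonneg _) hr.le,
      ← ENNReal.ofReal_mul Real.two_pi_pos.le]
    refine (ENNReal.ofReal_le_ofReal h2).trans ((Real.ofReal_le_enorm _).trans
      ((enorm_integral_le_lintegral_enorm _).trans (lintegral_congr fun θ => ?_).le))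
    rw [Real.enorm_rpow_of_nonneg (norm_nonneg _) hr.le, enorm_norm]
    exact (piecewise_eq_of_mem P (fun z => ‖f z‖ₑ ^ r) 0 (hs z hz (circleMap 0 1 θ) (by simp))).symm
  rw [← ENNReal.mul_le_mul_iff_right hπ ENNReal.ofReal_ne_top, ← mul_assoc, ← setLIntegral_const]
  refine (setLIntegral_mono' hP.measurableSet h1).trans ((setLIntegral_le_lintegral _ _).trans ?_)
  have c : Continuous fun w : Cm n × ℝ => q + circleMap 0 1 w.2 • (w.1 - q) := by fun_prop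
  rw [lintegral_lintegral_swap (f := fun z θ => F (q + circleMap 0 1 θ • (z - q)))
      (hF.comp c.measurable).aemeasurable,
    lintegral_congr fun θ => (rot_pres q (by simp)).lintegral_comp hF, setLIntegral_const,
    Real.volume_Ioc, sub_zero, mul_comm, ← lintegral_indicator hP.measurableSet,
    ← piecewise_eq_indicator]

theorem rpow_cmp {a b : ℝ} (ha : 0 < a) (h1 : a / 2 ≤ b) (h2 : b ≤ 2 * a) (γ : ℝ) :
    a ^ γ ≤ 2 ^ |γ| * b ^ γ := by
  have hb : 0 < b := by linarith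
  rcases le_total 0 γ with h | h
  · rw [abs_of_nonneg h, ← Real.mul_rpow zero_le_two hb.le]
    exact Real.rpow_le_rpow ha.le (by linarith) h
  · rw [abs_of_nonpos h, Real.rpow_neg zero_le_two, ← Real.inv_rpow zero_le_two,
      ← Real.mul_rpow (by norm_num) hb.le]
    exact Real.rpow_le_rpow_of_nonpos (by positivity) (by linarith) h

theorem small {f : Cm n → ℂ} {p : Cm n} {T : Finset (Fin n)} {γ : Fin n → ℝ} {r : ℝ} (hr : 0 < r)
    (hT : T.Nonempty) (hp : ∀ i ∈ T, p i = 0) {φ : Cm n → ℝ≥0∞} {U : Set (Cm n)} (hU : U ∈ 𝓝 p)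
    (hφ : ∫⁻ z in U, φ z < ⊤) (hf : ∀ᶠ z in 𝓝 p, (∀ i ∈ T, z i ≠ 0) →
      AnalyticAt ℂ f z ∧ ENNReal.ofReal (‖f z‖ ^ r * ∏ i ∈ T, ‖z i‖ ^ γ i) ≤ φ z) :
    Tendsto (fun z => ‖f z‖ ^ r * ∏ i ∈ T, ‖z i‖ ^ (γ i + 2)) (𝓝[{z | ∀ i ∈ T, z i ≠ 0}] p)
      (𝓝 0) := by
  classical
  obtain ⟨R', hR', hB⟩ := Metric.eventually_nhds_iff_ball.1 (hf.and hU)
  have hR := half_pos hR'
  set R := R' / 2 with hRR
  let P : Cm n → Set (Cm n) := fun z =>
    univ.pi fun i => ball (z i) (if i ∈ T then ‖z i‖ / 2 else R)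
  let K : ℝ := ∏ i, if i ∈ T then Real.pi / 4 else R ^ 2 * Real.pi
  have hK : 0 < K := Finset.prod_pos fun i _ => by split_ifs <;> positivity
  have hv : ∀ z, volume (P z) = ENNReal.ofReal (K * ∏ i ∈ T, ‖z i‖ ^ 2) := fun z => by
    rw [volume_pi_pi, ← Finset.prod_ite_mem_eq T, ← Finset.prod_mul_distrib,
      ENNReal.ofReal_prod_of_nonneg fun i _ => by split_ifs <;> positivity]
    refine Finset.prod_congr rfl fun i _ => ?_
    rw [Complex.volume_ball, ← ENNReal.ofReal_pow (by split_ifs <;> positivity),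
      ← ENNReal.ofReal_coe_nnreal, ← ENNReal.ofReal_mul (sq_nonneg _), NNReal.coe_real_pi]
    congr 1
    split_ifs <;> ring
  have h0 : Tendsto (fun z => volume (P z)) (𝓝 p) (𝓝 0) := by
    obtain ⟨i, hi⟩ := hT
    have c : Continuous fun z : Cm n => K * ∏ i ∈ T, ‖z i‖ ^ 2 := by fun_prop
    have := ENNReal.tendsto_ofReal (c.tendsto p)
    rw [Finset.prod_eq_zero hi (by simp [hp i hi])] at this
    simpa only [hv, mul_zero, ENNReal.ofReal_zero] using this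
  have h1 := ENNReal.Tendsto.const_mul (a := ENNReal.ofReal (∏ i ∈ T, 2 ^ |γ i|))
    (tendsto_setLIntegral_zero (μ := volume.restrict U) (s := P) hφ.ne
      (tendsto_of_tendsto_of_tendsto_of_le_of_le tendsto_const_nhds h0 (fun _ => zero_le)
        fun z => Measure.restrict_le_self _)) (.inr ENNReal.ofReal_ne_top)
  rw [mul_zero] at h1
  have h2 : Tendsto (fun z => ENNReal.ofReal (K * (‖f z‖ ^ r * ∏ i ∈ T, ‖z i‖ ^ (γ i + 2))))
      (𝓝[{z | ∀ i ∈ T, z i ≠ 0}] p) (𝓝 0) := by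
    refine tendsto_of_tendsto_of_tendsto_of_le_of_le' tendsto_const_nhds
      (h1.mono_left nhdsWithin_le_nhds) (.of_forall fun _ => zero_le) ?_
    filter_upwards [self_mem_nhdsWithin, mem_nhdsWithin_of_mem_nhds (ball_mem_nhds p hR)]
      with z hz hz'
    have k1 : ∀ w ∈ P z, w ∈ ball p R' := fun w hw => by
      have : dist w z ≤ R := (dist_pi_le_iff hR.le).2 fun i => (hw i trivial).le.trans (by
        split_ifs with h
        · have := (dist_pi_lt_iff hR).1 hz' i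
          rw [hp i h, dist_zero_right] at this
          linarith [norm_nonneg (z i)]
        · rfl)
      have := dist_triangle w z p
      rw [mem_ball] at hz' ⊢
      linarith
    have k2 : ∀ w ∈ P z, ∀ i ∈ T, ‖z i‖ / 2 ≤ ‖w i‖ ∧ ‖w i‖ ≤ 2 * ‖z i‖ := fun w hw i hi => by
      have := hw i trivial
      simp only [if_pos hi, mem_ball, dist_eq_norm] at this
      constructor <;> linarith [abs_le.1 (abs_norm_sub_norm_le (w i) (z i)), norm_nonneg (z i)]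
    have k3 : ∀ w ∈ P z, ∀ i ∈ T, w i ≠ 0 := fun w hw i hi =>
      norm_pos_iff.1 ((half_pos (norm_pos_iff.2 (hz i hi))).trans_le (k2 w hw i hi).1)
    have k4 : IsOpen (P z) := isOpen_set_pi finite_univ fun _ _ => isOpen_ball
    have k5 := mean (q := z) k4 (fun w hw t ht i _ => by
      have := hw i trivial
      rw [mem_ball, dist_eq_norm] at this ⊢
      refine lt_of_le_of_lt ?_ this
      simpa using mul_le_of_le_one_left (norm_nonneg (w i - z i)) ht)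
      (fun w hw => ((hB w (k1 w hw)).1 (k3 w hw)).1) hr
    have k6 : K * (‖f z‖ ^ r * ∏ i ∈ T, ‖z i‖ ^ (γ i + 2)) =
        (∏ i ∈ T, ‖z i‖ ^ γ i) * (‖f z‖ ^ r * (K * ∏ i ∈ T, ‖z i‖ ^ 2)) := by
      rw [Finset.prod_congr rfl fun i hi => Real.rpow_add (norm_pos_iff.2 (hz i hi)) _ _,
        Finset.prod_mul_distrib]
      simp only [Real.rpow_two]
      ring
    have k7 : ∀ w : Cm n, 0 ≤ ∏ i ∈ T, ‖w i‖ ^ γ i := fun w => by positivity
    rw [k6, ENNReal.ofReal_mul (k7 z), ENNReal.ofReal_mul (by positivity), ← hv,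
      ← ENNReal.ofReal_rpow_of_nonneg (norm_nonneg _) hr.le, ofReal_norm,
      Measure.restrict_restrict_of_subset fun w hw => (hB w (k1 w hw)).2]
    refine (mul_le_mul_right k5 _).trans ?_
    rw [← lintegral_const_mul' _ _ ENNReal.ofReal_ne_top,
      ← lintegral_const_mul' _ _ ENNReal.ofReal_ne_top]
    refine setLIntegral_mono' k4.measurableSet fun w hw => le_trans ?_
      (mul_le_mul_right ((hB w (k1 w hw)).1 (k3 w hw)).2 _)
    rw [← ofReal_norm, ENNReal.ofReal_rpow_of_nonneg (norm_nonneg _) hr.le,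
      ← ENNReal.ofReal_mul (k7 z), ← ENNReal.ofReal_mul (by positivity), mul_left_comm, mul_comm,
      ← Finset.prod_mul_distrib]
    refine ENNReal.ofReal_le_ofReal (mul_le_mul_of_nonneg_left (Finset.prod_le_prod
      (fun i _ => by positivity) fun i hi => ?_) (by positivity))
    exact rpow_cmp (norm_pos_iff.2 (hz i hi)) (k2 w hw i hi).1 (k2 w hw i hi).2 _
  have h3 := ((ENNReal.tendsto_toReal ENNReal.zero_ne_top).comp h2).const_mul K⁻¹
  rw [ENNReal.toReal_zero, mul_zero] at h3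
  refine h3.congr fun z => ?_
  rw [comp_apply, ENNReal.toReal_ofReal (by positivity), inv_mul_cancel_left₀ hK.ne']

theorem small' {α : Type} [Fintype α] [Nonempty α] (j : α ↪ Fin n) {f : Cm n → ℂ} {p : Cm n}
    {γ : α → ℝ} {r : ℝ} (hr : 0 < r) (hp : ∀ a, p (j a) = 0) {φ : Cm n → ℝ≥0∞} {U : Set (Cm n)}
    (hU : U ∈ 𝓝 p) (hφ : ∫⁻ z in U, φ z < ⊤) (hf : ∀ᶠ z in 𝓝 p, (∀ a, z (j a) ≠ 0) →
      AnalyticAt ℂ f z ∧ ENNReal.ofReal (‖f z‖ ^ r * ∏ a, ‖z (j a)‖ ^ γ a) ≤ φ z) :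
    Tendsto (fun z => ‖f z‖ ^ r * ∏ a, ‖z (j a)‖ ^ (γ a + 2)) (𝓝[{z | ∀ a, z (j a) ≠ 0}] p)
      (𝓝 0) := by
  simpa [j.injective.extend_apply] using small (T := Finset.univ.map j) (γ := extend j γ 0) hr
    (by simp) (by simpa using hp) hU hφ (by simpa [j.injective.extend_apply] using hf)

theorem int_snc {α : Type} [Fintype α] (j : α ↪ Fin n) {γ : α → ℝ} (h : ∀ a, -2 < γ a) (p : Cm n) :
    ∃ U ∈ 𝓝 p, ∫⁻ z in U, ENNReal.ofReal (∏ a, ‖z (j a)‖ ^ γ a) < ⊤ := by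
  have h1 : ∀ i, IntegrableOn (fun z : ℂ => ‖z‖ ^ extend j γ 0 i) (ball 0 (‖p‖ + 1)) := fun i =>
    integrableOn_ball_of_norm_le_rpow (C := 1) (α := -extend j γ 0 i) (by simp) (by
      by_cases hi : ∃ a, j a = i
      · obtain ⟨a, rfl⟩ := hi
        rw [j.injective.extend_apply]
        simpa using neg_lt.2 (h a)
      · simp [extend_apply' _ _ _ hi])
      (.of_forall fun z => by simp [abs_of_nonneg (Real.rpow_nonneg (norm_nonneg z) _)])
      (measurable_norm.pow_const _).aestronglyMeasurable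
  have h2 := (Integrable.fintype_prod h1).lintegral_lt_top
  rw [← Measure.restrict_pi_pi] at h2
  refine ⟨_, set_pi_mem_nhds finite_univ fun i _ => isOpen_ball.mem_nhds (mem_ball_zero_iff.2
    ((norm_le_pi_norm p i).trans_lt (lt_add_one _))), (lintegral_congr fun z => ?_).trans_lt h2⟩
  rw [← Finset.prod_subset (Finset.subset_univ (Finset.univ.map j)) fun i _ hi => by
    rw [extend_apply' _ _ _ (by simpa using hi), Pi.zero_apply, Real.rpow_zero], Finset.prod_map]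
  simp only [j.injective.extend_apply]

end Sc

variable {n : ℕ} {X : Type} [TopologicalSpace X] [ChartedSpace (Cm n) X]
  [IsManifold 𝓘(ℂ, Cm n) ω X] {κ : Type} [Fintype κ] {G : κ → Set X} {c γ : κ → ℝ} {k : κ → ℤ}
  {u : X → ℂ} {x : X} {ζ : κ → X → ℂ} {φ ψ : X → ℝ≥0∞} {r : ℝ}

variable (n) in
/-- `φ` is integrable near `x` -/
def Li (φ : X → ℝ≥0∞) (x : X) : Prop :=
  ∃ e : Chart n X, At e x ∧ ∃ U ∈ 𝓝 (e x), ∫⁻ z in U, φ (e.symm z) < ⊤

theorem li_chg {e e' : Chart n X} (he : Co n e) (he' : Co n e') (hx : x ∈ e.source)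
    (hx' : x ∈ e'.source) (h : ∃ U ∈ 𝓝 (e x), ∫⁻ z in U, φ (e.symm z) < ⊤) :
    ∃ U ∈ 𝓝 (e' x), ∫⁻ z in U, φ (e'.symm z) < ⊤ := by
  obtain ⟨V, hV, h⟩ := h
  have hΨ : AnalyticAt ℂ (e.symm.trans e') (e x) := AnalyticAt.pi fun i =>
    he.an_hol (e.map_source hx) (by rw [e.left_inv hx]; exact (he'.an x hx').hol i)
  have h0 : e x ∈ (e.symm.trans e').source := by simp [e.map_source hx, e.left_inv hx, hx']
  set Φ := e.symm.trans e' with hΦ
  have hdet : ContinuousAt (fun w => |(fderiv ℝ Φ w).det|) (e x) :=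
    (ContinuousLinearMap.continuous_det.continuousAt.comp
      (((hΨ.contDiffAt (n := 1)).restrict_scalars ℝ).continuousAt_fderiv one_ne_zero)).abs
  obtain ⟨ρ, hρ, hb⟩ := Metric.eventually_nhds_iff_ball.1 ((hdet.eventually
    (gt_mem_nhds (lt_add_one _))).and (hΨ.eventually_analyticAt.and
      ((Φ.open_source.eventually_mem h0).and (show ∀ᶠ w in 𝓝 (e x), w ∈ V from hV))))
  refine ⟨Φ '' ball (e x) ρ, ?_, ?_⟩
  · simpa [hΦ, e.left_inv hx] using Φ.image_mem_nhds h0 (ball_mem_nhds _ hρ)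
  rw [lintegral_image_eq_lintegral_abs_det_fderiv_mul volume measurableSet_ball
    (f' := fderiv ℝ Φ) (fun w hw =>
      ((hb w hw).2.1.differentiableAt.restrictScalars ℝ).hasFDerivAt.hasFDerivWithinAt)
    (Φ.injOn.mono fun w hw => (hb w hw).2.2.1)]
  refine lt_of_le_of_lt ?_ (ENNReal.mul_lt_top
    (a := ENNReal.ofReal (|(fderiv ℝ Φ (e x)).det| + 1)) ENNReal.ofReal_lt_top h)
  refine le_trans ?_ (mul_le_mul_right (lintegral_mono_set fun w hw => (hb w hw).2.2.2) _)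
  rw [← lintegral_const_mul' _ _ ENNReal.ofReal_ne_top]
  refine setLIntegral_mono' measurableSet_ball fun w hw => ?_
  rw [show e'.symm (Φ w) = e.symm w from e'.left_inv (hb w hw).2.2.1.2]
  exact mul_le_mul_left (ENNReal.ofReal_le_ofReal (hb w hw).1.le) _

theorem Li.co (h : Li n φ x) {e : Chart n X} (he : Co n e) (hx : x ∈ e.source) :
    ∃ U ∈ 𝓝 (e x), ∫⁻ z in U, φ (e.symm z) < ⊤ :=
  let ⟨_, h1, h2⟩ := h
  li_chg (co_chart h1.1) he h1.2 hx h2

theorem Li.at (h : Li n φ x) {e : Chart n X} (he : At e x) :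
    ∃ U ∈ 𝓝 (e x), ∫⁻ z in U, φ (e.symm z) < ⊤ := h.co (co_chart he.1) he.2

theorem li_of_co {e : Chart n X} (he : Co n e) (hx : x ∈ e.source)
    (h : ∃ U ∈ 𝓝 (e x), ∫⁻ z in U, φ (e.symm z) < ⊤) : Li n φ x :=
  ⟨_, at_chart x, li_chg he (co_chart (at_chart x).1) hx (at_chart x).2 h⟩

theorem Li.near (h : Li n φ x) : ∀ᶠ y in 𝓝 x, Li n φ y := by
  obtain ⟨e, he, U, hU, h⟩ := h
  filter_upwards [P277Z.At.near he, (e.continuousAt he.2).eventually (eventually_mem_nhds_iff.2 hU)]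
    with y h1 h2 using ⟨e, h1, U, h2, h⟩

theorem lint_mono {E : Type} [TopologicalSpace E] [MeasureSpace E] [OpensMeasurableSpace E]
    {f g : E → ℝ≥0∞} {p : E} (h : ∃ U ∈ 𝓝 p, ∫⁻ z in U, g z < ⊤) {C : ℝ≥0∞} (hC : C ≠ ⊤)
    {N : E → Prop} (hN : ∀ᵐ z, N z) (hle : ∀ᶠ z in 𝓝 p, N z → f z ≤ C * g z) :
    ∃ U ∈ 𝓝 p, ∫⁻ z in U, f z < ⊤ := by
  obtain ⟨V, hV, h⟩ := h
  obtain ⟨O, hO, hOo, hp⟩ := _root_.mem_nhds_iff.1 (inter_mem hV hle)
  refine ⟨O, hOo.mem_nhds hp, lt_of_le_of_lt ?_ (ENNReal.mul_lt_top hC.lt_top h)⟩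
  rw [← lintegral_const_mul' _ _ hC]
  refine le_trans (lintegral_mono_ae ?_) (lintegral_mono_set fun z hz => (hO hz).1)
  filter_upwards [ae_restrict_mem hOo.measurableSet, ae_restrict_of_ae hN] with z hz hz'
    using (hO hz).2 hz'

theorem Li.mono (h : Li n φ x) {C : ℝ≥0∞} (hC : C ≠ ⊤) (hle : ∀ᶠ y in 𝓝 x, ψ y ≤ C * φ y) :
    Li n ψ x :=
  let ⟨e, he, h⟩ := h
  ⟨e, he, lint_mono h hC (N := fun _ => True) (.of_forall fun _ => trivial)
    ((at_ev he hle).mono fun _ k _ => k)⟩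

/-- adapted coordinates -/
theorem snc_chart [DecidablePred fun l => x ∈ G l] (hG : Snc n G)
    (hζ : ∀ l, LEq n (G l) x (ζ l)) : ∃ (e : Chart n X) (j : {l // x ∈ G l} ↪ Fin n), Co n e ∧
      x ∈ e.source ∧ (∀ a, e x (j a) = 0) ∧ (∀ᶠ y in 𝓝 x, y ∈ off G ↔ ∀ a, e y (j a) ≠ 0) ∧
      ∀ γ : κ → ℝ, ∃ w : X → ℝ, ContinuousAt w x ∧ 0 < w x ∧
        ∀ᶠ y in 𝓝 x, ∏ l, ‖ζ l y‖ ^ γ l = w y * ∏ a, ‖e y (j a)‖ ^ γ a := by
  obtain ⟨ξ, hξ, hI⟩ := hG x
  obtain ⟨e, j, h1, h2, -, h3, h4⟩ := exists_chart hI univ_mem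
  choose v k1 k2 k3 using fun l => leq_unit (hξ l) (hζ l)
  have k4 : ∀ l : {l // ¬ x ∈ G l}, ξ l x ≠ 0 := fun l => mt (hξ l).mem.1 l.2
  refine ⟨e, ⟨j, h3⟩, h1, h2, fun a => (h4 x h2 a).trans ((hξ a).mem.2 a.2), ?_, fun γ =>
    ⟨fun y => (∏ l, ‖v l y‖ ^ γ l) * ∏ l : {l // ¬ x ∈ G l}, ‖ξ l y‖ ^ γ l,
      (tendsto_finsetProd _ fun l _ => (k1 l).cont.norm.rpow_const
        (.inl (norm_ne_zero_iff.2 (k2 l)))).mul (tendsto_finsetProd _ fun l _ =>
          (hξ l).hol.cont.norm.rpow_const (.inl (norm_ne_zero_iff.2 (k4 l)))),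
      mul_pos (wt_pos k2 γ) (wt_pos (ζ := fun l : {l // ¬ x ∈ G l} => ξ l) k4 _), ?_⟩⟩
  · filter_upwards [off_iff hξ, e.open_source.mem_nhds h2, eventually_all.2 fun l =>
      (hξ (l : {l // ¬ x ∈ G l})).hol.ne_near (k4 l)] with y m1 m2 m3
    refine m1.trans ⟨fun h a => (h4 y m2 a).trans_ne (h a), fun h l => ?_⟩
    exact (em (x ∈ G l)).elim (fun m => (h4 y m2 ⟨l, m⟩).symm.trans_ne (h ⟨l, m⟩)) fun m => m3 ⟨l, m⟩
  · filter_upwards [eventually_all.2 k3, e.open_source.mem_nhds h2] with y m1 m2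
    simp only [Embedding.coeFn_mk, h4 y m2, m1, norm_mul, Real.mul_rpow (norm_nonneg _)
      (norm_nonneg _), Finset.prod_mul_distrib]
    rw [mul_assoc, mul_comm (∏ l : {l // ¬ x ∈ G l}, _),
      Fintype.prod_subtype_mul_prod_subtype (fun l => x ∈ G l) fun l => ‖ξ l y‖ ^ γ l]

/-- the values on `G` do not matter -/
theorem Li.mono_off (hG : Snc n G) (h : Li n φ x) {C : ℝ≥0∞} (hC : C ≠ ⊤)
    (hle : ∀ᶠ y in 𝓝 x, y ∈ off G → ψ y ≤ C * φ y) : Li n ψ x := by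
  classical
  obtain ⟨ζ, hζ⟩ := Hyp.of_snc hG x
  obtain ⟨e, j, h1, h2, -, h4, -⟩ := snc_chart hG hζ
  refine li_of_co h1 h2 (lint_mono (h.co h1 h2) hC (N := fun z => ∀ a, z (j a) ≠ 0)
    (ae_all_iff.2 fun a => Measure.ae_eval_ne _ (j a) 0) ?_)
  filter_upwards [(e.tendsto_symm h2).eventually (h4.and hle), e.eventually_right_inverse' h2]
    with z m1 m2 m3 using m1.2 (m1.1.2 (by rwa [m2]))

theorem enorm_wt {y : X} (h : ∀ l, ζ l y ≠ 0) (hr : 0 ≤ r) (a : ℂ) (γ : κ → ℝ) :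
    ‖a‖ₑ ^ r * ∏ l, ‖ζ l y‖ₑ ^ γ l = ENNReal.ofReal (‖a‖ ^ r * ∏ l, ‖ζ l y‖ ^ γ l) := by
  rw [ENNReal.ofReal_mul (by positivity), ENNReal.ofReal_prod_of_nonneg fun _ _ => by positivity,
    ← ENNReal.ofReal_rpow_of_nonneg (norm_nonneg _) hr, ofReal_norm]
  exact congrArg _ (Finset.prod_congr rfl fun l _ => by
    rw [← ENNReal.ofReal_rpow_of_pos (norm_pos_iff.2 (h l)), ofReal_norm])

theorem li_wt (hG : Snc n G) (hζ : ∀ l, LEq n (G l) x (ζ l)) (hγ : ∀ l, x ∈ G l → -2 < γ l) :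
    Li n (fun y => ENNReal.ofReal (∏ l, ‖ζ l y‖ ^ γ l)) x := by
  classical
  obtain ⟨e, j, h1, h2, -, -, h5⟩ := snc_chart hG hζ
  obtain ⟨w, k1, -, k3⟩ := h5 γ
  obtain ⟨C, k4, k5⟩ := bdd_near k1
  refine li_of_co h1 h2 (lint_mono (Sc.int_snc j (fun a => hγ a a.2) (e x))
    (C := ENNReal.ofReal C) ENNReal.ofReal_ne_top (N := fun _ => True)
    (.of_forall fun _ => trivial) ?_)
  filter_upwards [(e.tendsto_symm h2).eventually (k3.and k5), e.eventually_right_inverse' h2]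
    with z m1 m2 _
  rw [m1.1, m2, ← ENNReal.ofReal_mul k4.le]
  exact ENNReal.ofReal_le_ofReal (mul_le_mul_of_nonneg_right m1.2 (by positivity))

/-- the bound implies the integrability -/
theorem BdP.li (hG : Snc n G) (h : BdP n id G c u x) (hζ : ∀ l, LEq n (G l) x (ζ l)) (hr : 0 ≤ r)
    (hγ : ∀ l, x ∈ G l → r * c l < γ l + 2) :
    Li n (fun y => ‖u y‖ₑ ^ r * ∏ l, ‖ζ l y‖ₑ ^ γ l) x := by
  obtain ⟨C, hC⟩ := h ζ hζ
  refine (li_wt hG hζ (γ := fun l => γ l - r * c l) fun l hl => by linarith [hγ l hl]).mono_off hG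
    (C := ENNReal.ofReal (|C| ^ r)) ENNReal.ofReal_ne_top ?_
  filter_upwards [hC, off_iff hζ] with y m1 m2 m3
  have m4 := Real.rpow_le_rpow (mul_nonneg (norm_nonneg _) (wt_nonneg _ _ _))
    ((m1 m3).trans (le_abs_self C)) hr
  rw [Real.mul_rpow (norm_nonneg _) (wt_nonneg _ _ _),
    ← Real.finsetProd_rpow _ _ fun _ _ => by positivity] at m4
  rw [enorm_wt (m2.1 m3) hr, ← ENNReal.ofReal_mul (by positivity)]
  refine ENNReal.ofReal_le_ofReal (le_trans (le_of_eq ?_)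
    (mul_le_mul_of_nonneg_right m4 (wt_nonneg _ _ _)))
  rw [mul_assoc, ← Finset.prod_mul_distrib]
  exact congrArg _ (Finset.prod_congr rfl fun l _ => by
    rw [id, ← Real.rpow_mul (norm_nonneg _), ← Real.rpow_add (norm_pos_iff.2 (m2.1 m3 l))]
    congr 1
    ring)

theorem Li.small (hG : Snc n G) (h : Li n φ x) (hζ : ∀ l, LEq n (G l) x (ζ l)) (hr : 0 < r)
    (hu : ∀ᶠ y in 𝓝 x, y ∈ off G → Hol n u y ∧ ‖u y‖ₑ ^ r * ∏ l, ‖ζ l y‖ₑ ^ γ l ≤ φ y)
    (hx : x ∉ off G) :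
    Tendsto (fun y => ‖u y‖ ^ r * ∏ l, ‖ζ l y‖ ^ (γ l + 2)) (𝓝[off G] x) (𝓝 0) := by
  classical
  obtain ⟨e, j, h1, h2, h3, h4, h5⟩ := snc_chart hG hζ
  obtain ⟨w, k1, k2, k3⟩ := h5 γ
  obtain ⟨w', k4, -, k5⟩ := h5 fun l => γ l + 2
  obtain ⟨l, hl⟩ := not_forall.1 hx
  have : Nonempty {l // x ∈ G l} := ⟨l, not_not.1 hl⟩
  obtain ⟨C, k6, k7⟩ := bdd_near (k1.inv₀ k2.ne')
  obtain ⟨U, hU, h⟩ := lint_mono (h.co h1 h2) (C := ENNReal.ofReal C) ENNReal.ofReal_ne_top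
    (N := fun _ => True) (.of_forall fun _ => trivial) (.of_forall fun _ _ => le_rfl)
  have k8 := Sc.small' j (f := fun z => u (e.symm z)) (γ := fun a => γ a) hr h3 hU h (by
    filter_upwards [(e.tendsto_symm h2).eventually (hu.and (h4.and (k3.and (k7.and
      ((off_iff hζ).and (k1.eventually_ne k2.ne')))))), e.eventually_right_inverse' h2,
      e.open_target.mem_nhds (e.map_source h2)] with z ⟨m1, m2, m3, m4, m5, m6⟩ m7 m8 m9
    have m10 := m2.2 (by rwa [m7])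
    refine ⟨h1.an_hol m8 (m1 m10).1, le_trans ?_ (mul_le_mul_right (m1 m10).2 _)⟩
    rw [enorm_wt (m5.1 m10) hr.le, ← ENNReal.ofReal_mul k6.le]
    refine ENNReal.ofReal_le_ofReal (le_trans (le_of_eq ?_) (mul_le_mul_of_nonneg_right m4
      (mul_nonneg (by positivity) (wt_nonneg _ _ _))))
    rw [m3, m7, mul_left_comm (_ ^ r), Pi.inv_apply, inv_mul_cancel_left₀ m6])
  have k9 := (k4.tendsto.mono_left nhdsWithin_le_nhds).mul (k8.comp (tendsto_nhdsWithin_iff.2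
    ⟨(e.continuousAt h2).continuousWithinAt (s := off G),
      eventually_nhdsWithin_iff.2 (h4.mono fun _ m => m.1)⟩))
  rw [mul_zero] at k9
  refine k9.congr' (eventually_nhdsWithin_of_eventually_nhds ?_)
  filter_upwards [k5, e.eventually_left_inverse h2] with y m1 m2
  rw [comp_apply, m2, m1, mul_left_comm]

/-- **L2**, real exponents -/
theorem Li.bdP (hG : Snc n G) (h : Li n φ x) (hζ : ∀ l, LEq n (G l) x (ζ l)) (hr : 0 < r)
    (hu : ∀ᶠ y in 𝓝 x, y ∈ off G → Hol n u y ∧ ‖u y‖ₑ ^ r * ∏ l, ‖ζ l y‖ₑ ^ γ l ≤ φ y) :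
    BdP n id G (fun l => (γ l + 2) / r) u x := by
  by_cases hx : x ∈ off G
  · exact bdP_off continuousAt_id hx (hu.self_of_nhds hx).1.cont
  refine bdP_of_one continuousAt_id hζ (C := 1) ((eventually_nhdsWithin_iff.1
    ((h.small hG hζ hr hu hx).eventually (gt_mem_nhds one_pos))).mono fun y m1 m2 => ?_)
  refine (Real.rpow_le_rpow_iff (mul_nonneg (norm_nonneg _) (wt_nonneg _ _ _)) zero_le_one hr).1 ?_
  rw [Real.one_rpow, Real.mul_rpow (norm_nonneg _) (wt_nonneg _ _ _),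
    ← Real.finsetProd_rpow _ _ fun _ _ => by positivity]
  simpa only [id, ← Real.rpow_mul (norm_nonneg _), div_mul_cancel₀ _ hr.ne'] using (m1 m2).le

/-- the integrability in terms of the orders -/
theorem OrdAt.of_li (hG : Snc n G) (ho : OrdAt n G k u x) (h : Li n φ x)
    (hζ : ∀ l, LEq n (G l) x (ζ l)) (hr : 0 < r)
    (hu : ∀ᶠ y in 𝓝 x, y ∈ off G → ‖u y‖ₑ ^ r * ∏ l, ‖ζ l y‖ₑ ^ γ l ≤ φ y) {l : κ}
    (hl : x ∈ G l) : 0 < r * k l + γ l + 2 := by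
  classical
  obtain ⟨ξ, hξ, hI⟩ := hG x
  obtain ⟨b, h1, -, h3, h4⟩ := ho ζ hζ
  obtain ⟨z, ⟨m1, m2, m3⟩, m4, m4', m5, m6, m7⟩ := (((Md.gen_pt hξ hI hl h1
    (not_dvd_of (hξ l) (h4 l hl))).self_of_nhds hl).and_eventually
    ((eventually_all.2 fun l => (hζ l).near).and ((eventually_all.2 fun l => (hξ l).near).and
      (h1.near.and ((h3.and hu).eventually_nhds.and h.near))))).exists
  have m8 : ∀ l' ∈ Finset.univ.erase l, ‖ζ l' z‖ ≠ 0 := fun l' m => norm_ne_zero_iff.2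
    fun e => m3 l' (Finset.ne_of_mem_erase m) ((m4' l').mem.2 ((m4 l').mem.1 e))
  have m9 := m7.small hG m4 hr (γ := γ) (u := u) (by
    filter_upwards [m6.eventually_nhds, m5.near, eventually_all.2 fun l => (m4 l).near]
      with y r1 r2 r3 r5
    refine ⟨(r2.mul (hol_mono r3 r5 k)).congr ?_, r1.self_of_nhds.2 r5⟩
    filter_upwards [r1, (Hyp.of_snc hG).isOpen.mem_nhds r5] with y' s1 s2
      using (s1.1 s2).symm) fun e => e l m1
  by_contra! hc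
  have : (𝓝[off G] z).NeBot := mem_closure_iff_nhdsWithin_neBot.1 ((Hyp.of_snc hG).dense z)
  have c1 : ContinuousAt (fun y => ‖b y‖ ^ r *
      ∏ l' ∈ Finset.univ.erase l, ‖ζ l' y‖ ^ (r * k l' + γ l' + 2)) z :=
    (m5.cont.norm.rpow_const (.inr hr.le)).mul (tendsto_finsetProd _ fun l' m =>
      (m4 l').hol.cont.norm.rpow_const (.inl (m8 l' m)))
  refine absurd (le_of_tendsto_of_tendsto (c1.tendsto.mono_left nhdsWithin_le_nhds) m9
    (eventually_nhdsWithin_iff.2 ?_)) (not_le.2 (mul_pos (Real.rpow_pos_of_pos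
      (norm_pos_iff.2 m2) _) (Finset.prod_pos fun l' m => Real.rpow_pos_of_pos
        ((norm_nonneg _).lt_of_ne' (m8 l' m)) _)))
  filter_upwards [m6, off_iff m4, (m4 l).hol.cont.norm.eventually (gt_mem_nhds (a := 1)
    (by simp [(m4 l).mem.2 m1]))] with y r1 r2 r3 r4
  have r5 : ‖u y‖ ^ r * ∏ l, ‖ζ l y‖ ^ (γ l + 2) =
      ‖b y‖ ^ r * ∏ l, ‖ζ l y‖ ^ (r * k l + γ l + 2) := by
    rw [r1.1 r4, norm_mul, Real.mul_rpow (norm_nonneg _) (norm_nonneg _), ← wt_int,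
      ← Real.finsetProd_rpow _ _ fun _ _ => by positivity, mul_assoc, ← Finset.prod_mul_distrib]
    exact congrArg _ (Finset.prod_congr rfl fun l _ => by
      rw [← Real.rpow_mul (norm_nonneg _), ← Real.rpow_add (norm_pos_iff.2 (r2.1 r4 l))]
      congr 1
      ring)
  rw [r5, ← Finset.mul_prod_erase _ _ (Finset.mem_univ l), mul_left_comm]
  exact le_mul_of_one_le_left (by positivity)
    (Real.one_le_rpow_of_pos_of_le_one_of_nonpos (norm_pos_iff.2 (r2.1 r4 l)) r3.le hc)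

/-- **L2** -/
theorem Li.bdP_int (hG : Snc n G) (h : Li n φ x) (hζ : ∀ l, LEq n (G l) x (ζ l)) (hr : 0 < r)
    (hu : ∀ᶠ y in 𝓝 x, y ∈ off G → Hol n u y ∧ ‖u y‖ₑ ^ r * ∏ l, ‖ζ l y‖ₑ ^ γ l ≤ φ y)
    (hk : ∀ l, x ∈ G l → γ l + 2 ≤ r * (k l + 1)) : BdP n id G (fun l => k l) u x := by
  by_cases h0 : ∃ᶠ y in 𝓝 x, y ∈ off G ∧ u y ≠ 0
  · obtain ⟨o, ho⟩ := (h.bdP hG hζ hr hu).ord hG (hu.mono fun _ m m' => (m m').1) h0
    refine ho.bdP (.of_snc hG) fun l hl => ?_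
    have h1 := ho.of_li hG h hζ hr (hu.mono fun _ m m' => (m m').2) hl
    have h2 : (0 : ℝ) < k l + o l + 1 := (mul_pos_iff_of_pos_left hr).1 (by linarith [hk l hl])
    exact_mod_cast Int.lt_add_one_iff.1 (by exact_mod_cast h2)
  · exact bdP_zero.congr ((not_frequently.1 h0).mono fun y m m' => by_contra fun e => m ⟨m', e⟩)

/-- square integrable functions extend -/
theorem Li.ext (hG : Snc n G) (h : Li n φ x)
    (hu : ∀ᶠ y in 𝓝 x, y ∈ off G → Hol n u y ∧ ‖u y‖ₑ ^ (2 : ℝ) ≤ φ y) :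
    ∃ b, Hol n b x ∧ ∀ᶠ y in 𝓝 x, y ∈ off G → b y = u y := by
  obtain ⟨ζ, hζ⟩ := Hyp.of_snc hG x
  simpa using (h.bdP_int hG hζ two_pos (γ := 0) (k := 0) (by simpa using hu) (by simp)).ext hG
    (k := 0) (by simp) (hu.mono fun _ m m' => (m m').1) hζ

/-- **L2** for sections -/
theorem secP_of_li (hG : Snc n G) {L : Bd X} {O : Set X} {s : L.ι → X → ℂ} (hL : IsLB n L)
    (hO : IsOpen O) (h1 : ∀ a, ∀ x ∈ O, x ∈ L.U a → x ∈ off G → Hol n (s a) x)
    (h2 : ∀ a b, ∀ x ∈ O, x ∈ L.U a → x ∈ L.U b → x ∈ off G → s a x = L.g a b x * s b x)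
    (hr : 0 < r) (hk : ∀ l, γ l + 2 ≤ r * (k l + 1))
    (h3 : ∀ x ∈ O, ∃ a, x ∈ L.U a ∧ ∃ ζ : κ → X → ℂ, (∀ l, LEq n (G l) x (ζ l)) ∧
      Li n (fun y => ‖s a y‖ₑ ^ r * ∏ l, ‖ζ l y‖ₑ ^ γ l) x) : SecP n n id O L G (fun l => k l) s := by
  refine secP_of_loc hL hO h1 h2 fun x hx => ?_
  obtain ⟨a, ha, ζ, hζ, h⟩ := h3 x hx
  refine ⟨a, ha, h.bdP_int hG hζ hr ?_ fun l _ => hk l⟩
  filter_upwards [hO.mem_nhds hx, lb_near hL ha] with y m1 m2 m3 using ⟨h1 a y m1 m2 m3, le_rfl⟩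

end Vale.Agent.P281Z
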